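import Vale.Agent.P371.Upper
import Mathlib.Topology.ContinuousMap.Weierstrass

/-! # Functions of the potential

`fn F A` applies the real function `F` to the eigenvalues of the Hermitian matrix `A`.  For a
continuous `F` and a measurable field of Hermitian matrices the entries are measurable.
-/

namespace Vale.Agent.P371.LT

open MeasureTheory Filter Topology Matrix
open scoped ComplexOrder

noncomputable section

variable {m : ℕ} {ι : Type} [Fintype ι]

/-- A real function of a Hermitian matrix, through its eigenvalues. -/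
def fn (F : ℝ → ℝ) (A : Matrix (Fin m) (Fin m) ℂ) : Matrix (Fin m) (Fin m) ℂ :=
  if h : A.IsHermitian then
    conjU (h.eigenvectorUnitary : Matrix (Fin m) (Fin m) ℂ) (dg fun c => F (h.eigenvalues c))
  else 0

/-- The weight of the rows of `Y` in the `c`-th column of `U`. -/
def rot (U : Matrix (Fin m) (Fin m) ℂ) (Y : Matrix ι (Fin m) ℂ) (c : Fin m) : ℝ :=
  ∑ n, Complex.normSq (∑ b, star (U b c) * Y n b)

theorem conjU_dg_apply (U : Matrix (Fin m) (Fin m) ℂ) (d : Fin m → ℝ) (a b : Fin m) :
    conjU U (dg d) a b = ∑ c, U a c * (d c : ℂ) * star (U b c) := by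
  simp only [conjU, dg, Matrix.mul_apply (M := U * _), mul_diagonal, star_apply]

theorem potDens_conjU (U : Matrix (Fin m) (Fin m) ℂ) (d : Fin m → ℝ) (Y : Matrix ι (Fin m) ℂ) :
    potDens (conjU U (dg d)) Y = ∑ c, d c * rot U Y c := by
  have e : (∑ n, ∑ a, ∑ b, star (Y n a) * conjU U (dg d) a b * Y n b)
      = ∑ c, ((d c * rot U Y c : ℝ) : ℂ) := by
    simp only [rot, Finset.mul_sum, Complex.ofReal_sum, Complex.ofReal_mul]
    conv_rhs => rw [Finset.sum_comm]
    refine Finset.sum_congr rfl fun n _ => ?_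
    have h1 : ∀ c, ((Complex.normSq (∑ b, star (U b c) * Y n b) : ℝ) : ℂ)
        = (∑ a, star (Y n a) * U a c) * ∑ b, star (U b c) * Y n b := fun c => by
      rw [Complex.normSq_eq_conj_mul_self, ← Complex.star_def, star_sum]
      simp only [star_mul, star_star]
    simp only [h1, conjU_dg_apply, Finset.mul_sum, Finset.sum_mul]
    rw [Finset.sum_congr rfl fun a (_ : a ∈ Finset.univ) => Finset.sum_comm, Finset.sum_comm]
    refine Finset.sum_congr rfl fun c _ => ?_
    rw [Finset.sum_comm]
    refine Finset.sum_congr rfl fun a _ => Finset.sum_congr rfl fun b _ => ?_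
    ring
  rw [potDens, e, ← Complex.ofReal_sum, Complex.ofReal_re]

theorem potDens_fn (F : ℝ → ℝ) {A : Matrix (Fin m) (Fin m) ℂ} (hA : A.IsHermitian)
    (Y : Matrix ι (Fin m) ℂ) :
    potDens (fn F A) Y = ∑ c, F (hA.eigenvalues c)
      * rot (hA.eigenvectorUnitary : Matrix (Fin m) (Fin m) ℂ) Y c := by
  rw [fn, dif_pos hA, potDens_conjU]

theorem potDens_eig {A : Matrix (Fin m) (Fin m) ℂ} (hA : A.IsHermitian)
    (Y : Matrix ι (Fin m) ℂ) :
    potDens A Y = ∑ c, hA.eigenvalues c
      * rot (hA.eigenvectorUnitary : Matrix (Fin m) (Fin m) ℂ) Y c := by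
  rw [← potDens_conjU]
  congr 1
  conv_lhs => rw [hA.spectral_theorem, Unitary.conjStarAlgAut_apply]
  rfl

theorem rot_nonneg (U : Matrix (Fin m) (Fin m) ℂ) (Y : Matrix ι (Fin m) ℂ) (c : Fin m) :
    0 ≤ rot U Y c := Finset.sum_nonneg fun _ _ => Complex.normSq_nonneg _

theorem rot_spec [DecidableEq ι] {A : Matrix (Fin m) (Fin m) ℂ} (hA : A.IsHermitian)
    (Y : Matrix ι (Fin m) ℂ) :
    ∑ c, rot (hA.eigenvectorUnitary : Matrix (Fin m) (Fin m) ℂ) Y c = frobSq Y ∧
      ∑ c, rot (hA.eigenvectorUnitary : Matrix (Fin m) (Fin m) ℂ) Y c ^ 3 ≤ cubeTr (Y * Yᴴ) := by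
  set U : Matrix (Fin m) (Fin m) ℂ := (hA.eigenvectorUnitary : Matrix (Fin m) (Fin m) ℂ)
  have hU : star U * U = 1 := Unitary.star_mul_self_of_mem hA.eigenvectorUnitary.2
  set V : Matrix (Fin m) (Fin m) ℂ := (star U)ᵀ with hVdef
  have hV : V * Vᴴ = 1 := by
    have e : Vᴴ = Uᵀ := by ext a b; simp [hVdef]
    rw [e, hVdef, ← transpose_mul, mul_eq_one_comm.mp hU, transpose_one]
  set Z := Y * V with hZdef
  have hZ : Z * Zᴴ = Y * Yᴴ := by
    rw [hZdef, conjTranspose_mul, Matrix.mul_assoc, ← Matrix.mul_assoc V, hV, Matrix.one_mul]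
  have hrot : ∀ c, rot U Y c = ∑ n, Complex.normSq (Z n c) := fun c => by
    refine Finset.sum_congr rfl fun n _ => ?_
    congr 1
    simp only [hZdef, hVdef, Matrix.mul_apply, transpose_apply, star_apply]
    exact Finset.sum_congr rfl fun b _ => mul_comm _ _
  constructor
  · rw [frobSq_eq_trace, ← hZ, ← frobSq_eq_trace, frobSq]
    simp only [hrot]
    exact Finset.sum_comm
  · have hd : ∀ c, rot U Y c = ((Zᴴ * Z) c c).re := fun c => by
      rw [hrot, Matrix.mul_apply, Complex.re_sum]
      refine Finset.sum_congr rfl fun n _ => ?_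
      rw [conjTranspose_apply, Complex.star_def, ← Complex.normSq_eq_conj_mul_self,
        Complex.ofReal_re]
    simp only [hd]
    refine (cube_diag_le (Matrix.posSemidef_conjTranspose_mul_self Z)).trans (le_of_eq ?_)
    rw [cubeTr, ← hZ]
    congr 1
    have : Zᴴ * Z * (Zᴴ * Z) * (Zᴴ * Z) = Zᴴ * (Z * Zᴴ * (Z * Zᴴ) * Z) := by
      simp only [Matrix.mul_assoc]
    rw [this, Matrix.trace_mul_comm]
    simp only [Matrix.mul_assoc]

theorem fn_trace (F : ℝ → ℝ) {A : Matrix (Fin m) (Fin m) ℂ} (hA : A.IsHermitian) :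
    (fn F A).trace.re = ∑ c, F (hA.eigenvalues c) := by
  rw [fn, dif_pos hA, conjU_trace (Unitary.star_mul_self_of_mem hA.eigenvectorUnitary.2)]
  simp [Matrix.trace, dg, Complex.re_sum]

theorem fn_isHermitian (F : ℝ → ℝ) (A : Matrix (Fin m) (Fin m) ℂ) : (fn F A).IsHermitian := by
  rw [fn]
  split_ifs with h
  · ext a b
    simp only [conjTranspose_apply, conjU_dg_apply, star_sum, star_mul, star_star,
      Complex.star_def, Complex.conj_conj, Complex.conj_ofReal]
    exact Finset.sum_congr rfl fun c _ => by ring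
  · exact isHermitian_zero

theorem eigU_le_one {A : Matrix (Fin m) (Fin m) ℂ} (hA : A.IsHermitian) (a c : Fin m) :
    ‖(hA.eigenvectorUnitary : Matrix (Fin m) (Fin m) ℂ) a c‖ ≤ 1 :=
  entry_norm_bound_of_unitary hA.eigenvectorUnitary.2 a c

theorem fn_entry_le (F : ℝ → ℝ) {A : Matrix (Fin m) (Fin m) ℂ} (hA : A.IsHermitian) (a b : Fin m) :
    ‖fn F A a b‖ ≤ ∑ c, |F (hA.eigenvalues c)| := by
  rw [fn, dif_pos hA, conjU_dg_apply]
  refine (norm_sum_le _ _).trans (Finset.sum_le_sum fun c _ => ?_)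
  rw [norm_mul, norm_mul, norm_star, Complex.norm_real, Real.norm_eq_abs]
  exact (mul_le_of_le_one_right (by positivity) (eigU_le_one hA b c)).trans
    (mul_le_of_le_one_left (abs_nonneg _) (eigU_le_one hA a c))

theorem fn_id {A : Matrix (Fin m) (Fin m) ℂ} (hA : A.IsHermitian) : fn (fun l => l) A = A := by
  rw [fn, dif_pos hA]
  conv_rhs => rw [hA.spectral_theorem, Unitary.conjStarAlgAut_apply]
  rfl

theorem fn_pow {A : Matrix (Fin m) (Fin m) ℂ} (hA : A.IsHermitian) (i : ℕ) :
    fn (fun l => l ^ i) A = A ^ i := by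
  have hU : star (hA.eigenvectorUnitary : Matrix (Fin m) (Fin m) ℂ)
      * (hA.eigenvectorUnitary : Matrix (Fin m) (Fin m) ℂ) = 1 :=
    Unitary.star_mul_self_of_mem hA.eigenvectorUnitary.2
  induction i with
  | zero =>
    rw [fn, dif_pos hA, pow_zero, show (dg fun c => hA.eigenvalues c ^ 0) = 1 by simp [dg],
      conjU, mul_one]
    exact mul_eq_one_comm.mp hU
  | succ i ih =>
    rw [pow_succ]
    conv_rhs => rw [← ih, fn, dif_pos hA]; arg 2; rw [← fn_id hA, fn, dif_pos hA]
    rw [fn, dif_pos hA, conjU_mul hU, dg, dg, dg, diagonal_mul_diagonal]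
    simp [pow_succ]

/-- Measurability of a continuous function of a measurable field of Hermitian matrices. -/
theorem measurable_fn {W : ℝ → Matrix (Fin m) (Fin m) ℂ} (hm : ∀ a b, Measurable fun x => W x a b)
    (hH : ∀ x, (W x).IsHermitian) {F : ℝ → ℝ} (hF : Continuous F) (a b : Fin m) :
    Measurable fun x => fn F (W x) a b := by
  have happ : ∀ k : ℕ, ∃ q : Polynomial ℝ, ∀ t ∈ Set.Icc (-(k : ℝ)) k,
      |q.eval t - F t| < 1 / ((k : ℝ) + 1) :=
    fun k => exists_polynomial_near_of_continuousOn _ _ F hF.continuousOn _ (by positivity)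
  choose q hq using happ
  have hpow : ∀ (i : ℕ) (a b : Fin m), Measurable fun x => (W x ^ i) a b := by
    intro i
    induction i with
    | zero =>
      intro a b
      simp only [pow_zero]
      exact measurable_const
    | succ i ih =>
      intro a b
      simp only [pow_succ, Matrix.mul_apply]
      exact Finset.measurable_fun_sum _ fun c _ => (ih a c).mul (hm c b)
  refine measurable_of_tendsto_metrizable
    (f := fun k x => ∑ i ∈ Finset.range ((q k).natDegree + 1),
      ((q k).coeff i : ℂ) * (W x ^ i) a b)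
    (fun k => Finset.measurable_fun_sum _ fun i _ => (hpow i a b).const_mul _)
    (tendsto_pi_nhds.mpr fun x => ?_)
  set U : Matrix (Fin m) (Fin m) ℂ := ((hH x).eigenvectorUnitary : Matrix (Fin m) (Fin m) ℂ)
  set l := (hH x).eigenvalues
  have e : ∀ k, ∑ i ∈ Finset.range ((q k).natDegree + 1), ((q k).coeff i : ℂ) * (W x ^ i) a b
      = fn (fun t => (q k).eval t) (W x) a b := by
    intro k
    simp only [← fn_pow (hH x)]
    simp only [fn, dif_pos (hH x), conjU_dg_apply, Finset.mul_sum]
    rw [Finset.sum_comm]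
    refine Finset.sum_congr rfl fun c _ => ?_
    rw [Polynomial.eval_eq_sum_range]
    push_cast
    rw [Finset.mul_sum, Finset.sum_mul]
    exact Finset.sum_congr rfl fun i _ => by ring
  simp only [e]
  rw [tendsto_iff_norm_sub_tendsto_zero]
  have hd : ∀ k, ‖fn (fun t => (q k).eval t) (W x) a b - fn F (W x) a b‖
      ≤ ∑ c, |(q k).eval (l c) - F (l c)| := by
    intro k
    have e2 : fn (fun t => (q k).eval t) (W x) a b - fn F (W x) a b
        = fn (fun t => (q k).eval t - F t) (W x) a b := by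
      simp only [fn, dif_pos (hH x), conjU_dg_apply, ← Finset.sum_sub_distrib]
      exact Finset.sum_congr rfl fun c _ => by push_cast; ring
    rw [e2]
    exact fn_entry_le _ (hH x) a b
  refine squeeze_zero' (g := fun k : ℕ => ∑ _c : Fin m, 1 / ((k : ℝ) + 1))
    (Eventually.of_forall fun (k : ℕ) => norm_nonneg (fn (fun t => (q k).eval t) (W x) a b
      - fn F (W x) a b)) ?_ ?_
  · filter_upwards [(tendsto_natCast_atTop_atTop (R := ℝ)).eventually_ge_atTop (∑ c, |l c|)]
      with k hk
    refine (hd k).trans (Finset.sum_le_sum fun c _ => (hq k _ ?_).le)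
    have : |l c| ≤ (k : ℝ) :=
      (Finset.single_le_sum (fun d _ => abs_nonneg (l d)) (Finset.mem_univ c)).trans hk
    exact abs_le.mp this
  · simpa using tendsto_finsetSum (Finset.univ : Finset (Fin m)) fun _ _ =>
      tendsto_one_div_add_atTop_nhds_zero_nat (𝕜 := ℝ)

end

end Vale.Agent.P371.LT
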