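import Mathlib.Analysis.SpecialFunctions.Pow.Real
import Mathlib.Data.Finset.Max

/-! # Value bands and geometric sums -/

namespace Vale.Agent.P371.LT

noncomputable section

/-- The part of `l` between the levels `lo` and `hi`. -/
def band (lo hi l : ℝ) : ℝ := min l hi - min l lo

theorem band_nonneg {lo hi : ℝ} (h : lo ≤ hi) (l : ℝ) : 0 ≤ band lo hi l :=
  sub_nonneg.mpr (min_le_min_left l h)

theorem band_le_hi {lo hi l : ℝ} (h0 : 0 ≤ lo) (hl : 0 ≤ l) : band lo hi l ≤ hi := by
  unfold band
  linarith [min_le_right l hi, le_min hl h0]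

theorem band_le_self {lo hi l : ℝ} (h0 : 0 ≤ lo) (hl : 0 ≤ l) : band lo hi l ≤ l := by
  unfold band
  linarith [min_le_left l hi, le_min hl h0]

theorem cut_le_band (lo hi l : ℝ) : l - max (l - hi) 0 ≤ lo + band lo hi l := by
  unfold band
  have h1 : l - max (l - hi) 0 = min l hi := by
    rcases le_total l hi with h | h
    · rw [max_eq_right (by linarith), min_eq_left h, sub_zero]
    · rw [max_eq_left (by linarith), min_eq_right h]; ring
  linarith [min_le_right l lo]

theorem continuous_band (lo hi : ℝ) : Continuous (band lo hi) :=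
  (continuous_id.min continuous_const).sub (continuous_id.min continuous_const)

/-- Consecutive bands add up to at most the value. -/
theorem sum_band_le {p : ℤ → ℝ} (hp : Monotone p) (hp0 : ∀ s, 0 ≤ p s) {l : ℝ} (hl : 0 ≤ l)
    (S : Finset ℤ) : ∑ s ∈ S, band (p s) (p (s + 1)) l ≤ l := by
  suffices h : ∀ S : Finset ℤ, ∀ t, (∀ s ∈ S, s < t) →
      ∑ s ∈ S, band (p s) (p (s + 1)) l ≤ min l (p t) by
    obtain ⟨t, ht⟩ : ∃ t, ∀ s ∈ S, s < t := by
      rcases S.eq_empty_or_nonempty with h' | h'
      · exact ⟨0, by simp [h']⟩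
      · exact ⟨S.max' h' + 1, fun s hs => Int.lt_add_one_iff.mpr (Finset.le_max' S s hs)⟩
    exact (h S t ht).trans (min_le_left _ _)
  intro S
  induction S using Finset.induction_on_max with
  | empty => exact fun t _ => by simpa using le_min hl (hp0 t)
  | insert a S ha ih =>
    intro t ht
    have hnot : a ∉ S := fun h => lt_irrefl a (ha a h)
    rw [Finset.sum_insert hnot]
    have h1 := ih a ha
    have h2 : min l (p (a + 1)) ≤ min l (p t) :=
      min_le_min_left l (hp (Int.add_one_le_iff.mpr (ht a (Finset.mem_insert_self a S))))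
    unfold band at *
    linarith

/-- A geometric sum over integers below a bound. -/
theorem geom_le {b : ℝ} (hb : 1 < b) (S : Finset ℤ) (t : ℤ) (ht : ∀ s ∈ S, s < t) :
    (b - 1) * ∑ s ∈ S, b ^ s ≤ b ^ t := by
  have hb0 : 0 < b := by linarith
  induction S using Finset.induction_on_max generalizing t with
  | empty => simpa using (zpow_pos hb0 t).le
  | insert a S ha ih =>
    have hnot : a ∉ S := fun h => lt_irrefl a (ha a h)
    rw [Finset.sum_insert hnot, mul_add]
    have h1 := ih a ha
    have h2 : b ^ (a + 1) ≤ b ^ t :=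
      zpow_le_zpow_right₀ hb.le (Int.add_one_le_iff.mpr (ht a (Finset.mem_insert_self a S)))
    rw [zpow_add_one₀ hb0.ne'] at h2
    linarith

/-- Powers of a band are controlled by the `p`-th powers. -/
theorem sum_band_rpow_le {p : ℝ} (hp : 1 ≤ p) {S : Finset ℤ} {f : ℤ → ℝ} {l : ℝ}
    (hf : ∀ s ∈ S, 0 ≤ f s) (hl : 0 ≤ l) (h : ∑ s ∈ S, f s ≤ l) : ∑ s ∈ S, f s ^ p ≤ l ^ p := by
  have h1 : ∀ s ∈ S, f s ^ p ≤ f s * l ^ (p - 1) := fun s hs => by
    rw [show f s ^ p = f s * f s ^ (p - 1) by
      rcases (hf s hs).eq_or_lt with h0 | h0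
      · rw [← h0, Real.zero_rpow (by linarith), zero_mul]
      · rw [← Real.rpow_one_add' h0.le (by linarith)]; ring_nf]
    exact mul_le_mul_of_nonneg_left (Real.rpow_le_rpow (hf s hs)
      ((Finset.single_le_sum hf hs).trans h) (by linarith)) (hf s hs)
  refine (Finset.sum_le_sum h1).trans ?_
  rw [← Finset.sum_mul]
  refine (mul_le_mul_of_nonneg_right h (Real.rpow_nonneg hl _)).trans (le_of_eq ?_)
  rw [← Real.rpow_one_add' hl (by linarith)]
  ring_nf

end

end Vale.Agent.P371.LT
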