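import Vale.Agent.P371.Below.Quad
import Vale.Agent.P371.Below.Scalar
import Vale.Agent.P371.Lift

/-! # One group of energy bins

For the bound states whose energies lie in a group of dyadic bins, the sum of the energies is at
most the `γ = 1` bound for the part of the potential in the matching value band, apart from the
loss of a few states in each bin caused by the part of the potential above the band.
-/

namespace Vale.Agent.P371.LT

open MeasureTheory Filter Topology Matrix
open scoped ComplexOrder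
open Vale.Agent.P371 (ymat dens OrthFam IsH1 frobSq frobSq_nonneg conjU dg cubeTr)

noncomputable section

variable {m N : ℕ}

/-- The trace of a function of the potential. -/
def sp (F : ℝ → ℝ) (A : Matrix (Fin m) (Fin m) ℂ) : ℝ := (fn F A).trace.re

theorem fn_posSemidef {F : ℝ → ℝ} (hF : ∀ l, 0 ≤ F l) (A : Matrix (Fin m) (Fin m) ℂ) :
    (fn F A).PosSemidef := by
  rw [fn]
  split_ifs with h
  · have hd : (dg fun c => F (h.eigenvalues c)).PosSemidef :=
      Matrix.PosSemidef.diagonal fun c => by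
        simp only [Pi.zero_apply, Complex.zero_le_real]
        exact hF _
    have := hd.mul_mul_conjTranspose_same (h.eigenvectorUnitary : Matrix (Fin m) (Fin m) ℂ)
    rwa [← star_eq_conjTranspose] at this
  · exact Matrix.PosSemidef.zero

theorem measurable_sp {W : ℝ → Matrix (Fin m) (Fin m) ℂ} (hm : ∀ a b, Measurable fun x => W x a b)
    (hH : ∀ x, (W x).IsHermitian) {F : ℝ → ℝ} (hF : Continuous F) :
    Measurable fun x => sp F (W x) := by
  refine Complex.measurable_re.comp ?_
  simp only [Matrix.trace, Matrix.diag]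
  exact Finset.measurable_fun_sum _ fun a _ => measurable_fn hm hH hF a a

theorem sp_eq (F : ℝ → ℝ) {A : Matrix (Fin m) (Fin m) ℂ} (hA : A.IsHermitian) :
    sp F A = ∑ c, F (hA.eigenvalues c) := fn_trace F hA

theorem sp_pow {g : ℝ} {A : Matrix (Fin m) (Fin m) ℂ} (hA : A.IsHermitian) :
    trPow g A = sp (fun l => l ^ g) A := by
  rw [trPow, dif_pos hA, sp_eq _ hA]

theorem integrable_sp {W : ℝ → Matrix (Fin m) (Fin m) ℂ} {g : ℝ} (hW : IsPotentialFor g W)
    {F : ℝ → ℝ} (hFc : Continuous F) {K : ℝ}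
    (hF : ∀ l, 0 ≤ l → |F l| ≤ K * l ^ (g + 1 / 2)) : Integrable fun x => sp F (W x) := by
  refine Integrable.mono' (hW.2.2.const_mul K)
    (measurable_sp hW.1 (fun x => (hW.2.1 x).isHermitian) hFc).aestronglyMeasurable
    (Eventually.of_forall fun x => ?_)
  rw [Real.norm_eq_abs, sp_eq _ (hW.2.1 x).isHermitian, trPow, dif_pos (hW.2.1 x).isHermitian,
    Finset.mul_sum]
  exact (Finset.abs_sum_le_sum_abs _ _).trans
    (Finset.sum_le_sum fun c _ => hF _ ((hW.2.1 x).eigenvalues_nonneg c))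

/-- The inclusion of a subset of the indices. -/
def incl (p : Fin N → Prop) : Matrix {n // p n} (Fin N) ℂ :=
  (1 : Matrix (Fin N) (Fin N) ℂ).submatrix Subtype.val id

theorem incl_gram (p : Fin N → Prop) [DecidablePred p] : incl p * (incl p)ᴴ = 1 := by
  rw [incl, conjTranspose_submatrix, conjTranspose_one,
    ← Matrix.submatrix_mul _ _ _ id _ Function.bijective_id, Matrix.one_mul,
    Matrix.submatrix_one _ Subtype.val_injective]

theorem incl_mul {α : Type} (p : Fin N → Prop) (Y : Matrix (Fin N) α ℂ) :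
    incl p * Y = Y.submatrix Subtype.val id := by
  ext i a
  simp [incl, Matrix.mul_apply, Matrix.one_apply]

theorem incl_apply {k : ℕ} (p : Fin N → Prop) [DecidablePred p]
    (C : Matrix (Fin k) {n // p n} ℂ) (i : Fin k) (n : Fin N) :
    (C * incl p) i n = if h : p n then C i ⟨n, h⟩ else 0 := by
  rw [Matrix.mul_apply]
  simp only [incl, submatrix_apply, id, Matrix.one_apply]
  split_ifs with h
  · rw [Finset.sum_eq_single ⟨n, h⟩]
    · simp
    · intro q _ hq
      rw [if_neg (fun hqn => hq (Subtype.ext hqn)), mul_zero]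
    · simp
  · refine Finset.sum_eq_zero fun q _ => ?_
    rw [if_neg (fun hqn : (q : Fin N) = n => h (hqn ▸ q.2)), mul_zero]

theorem orth_comb {κ : Type} [Fintype κ] [DecidableEq κ] {Φ Φ' : Fin N → Fin m → ℝ → ℂ}
    (hF : OrthFam Φ Φ') (C : Matrix κ (Fin N) ℂ) (hC : C * Cᴴ = 1) :
    OrthFam (fun k a x => ∑ n, C k n * Φ n a x) (fun k a x => ∑ n, C k n * Φ' n a x) := by
  refine ⟨fun k a => h1_comb (fun n => hF.h1 n a) _, fun k q => ?_⟩
  have e : ∀ x, dens (fun k a x => ∑ n, C k n * Φ n a x) k q x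
      = ∑ i, ∑ j, C k i * dens Φ i j x * star (C q j) := by
    intro x
    show ((C * ymat Φ x) * (C * ymat Φ x)ᴴ) k q = _
    rw [conjTranspose_mul, Matrix.mul_assoc, ← Matrix.mul_assoc (ymat Φ x)]
    simp only [Matrix.mul_apply (M := C), Matrix.mul_apply (N := Cᴴ), conjTranspose_apply,
      Finset.mul_sum]
    exact Finset.sum_congr rfl fun i _ => Finset.sum_congr rfl fun j _ => (mul_assoc _ _ _).symm
  simp only [e]
  have hi : ∀ i j, Integrable fun x => C k i * dens Φ i j x * star (C q j) := fun i j =>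
    ((hF.dens_integrable i j).const_mul _).mul_const _
  rw [integral_finsetSum _ fun i _ => integrable_finsetSum _ fun j _ => hi i j]
  have e2 : ∀ i, ∫ x, ∑ j, C k i * dens Φ i j x * star (C q j) = C k i * star (C q i) := by
    intro i
    rw [integral_finsetSum _ fun j _ => hi i j]
    simp only [integral_mul_const, integral_const_mul, hF.orth]
    simp [mul_ite, ite_mul]
  simp only [e2]
  have := congrFun (congrFun hC k) q
  rw [Matrix.one_apply, Matrix.mul_apply] at this
  simpa [conjTranspose_apply] using this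

theorem young_scaled {c l r : ℝ} (hc : 0 < c) (hl : 0 ≤ l) (hr : 0 ≤ r) :
    l * r ≤ ltConst / Real.sqrt c * l ^ ((3 : ℝ) / 2) + c * (Real.pi ^ 2 / 4 * r ^ 3) := by
  have h := mul_le_mul_of_nonneg_left (young (div_nonneg hl hc.le) hr) hc.le
  have e : c * (ltConst * (l / c) ^ ((3 : ℝ) / 2)) = ltConst / Real.sqrt c * l ^ ((3 : ℝ) / 2) := by
    rw [Real.div_rpow hl hc.le, show (3 : ℝ) / 2 = 1 + 1 / 2 by norm_num, Real.rpow_add hc,
      Real.rpow_one, ← Real.sqrt_eq_rpow]
    field_simp
  rw [mul_add, e, ← mul_assoc, mul_div_cancel₀ _ hc.ne'] at h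
  exact h

/-- The energies of the subfamilies. -/
theorem energy {W : ℝ → Matrix (Fin m) (Fin m) ℂ} {E : Fin N → ℝ}
    {ψ ψ' : Fin N → ℝ → Fin m → ℂ} (hb : IsBoundStates W E ψ ψ') {κ : Type} [Fintype κ]
    (C : Matrix κ (Fin N) ℂ) :
    tq (pmat W fun n a x => ψ n x a) C - tq (kin fun n a x => ψ' n x a) C
      = ∑ k, ∑ n, Complex.normSq (C k n) * |E n| := by
  have h : ∀ n i, pmat W (fun n a x => ψ n x a) n i - kin (fun n a x => ψ' n x a) n i
      = if n = i then ((|E n| : ℝ) : ℂ) else 0 := by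
    intro n i
    have hq := (hb.2.2 n).2 (ψ i) (ψ' i) (hb.1 i)
    rw [hb.2.1 i n, form, inner2] at hq
    have e1 : kin (fun n a x => ψ' n x a) n i = ∫ x, ∑ a, star (ψ' i x a) * ψ' n x a := by
      simp only [kin, mint, Matrix.of_apply]
      refine integral_congr_ae (Eventually.of_forall fun x => ?_)
      simp only [ymat, Matrix.mul_apply, conjTranspose_apply, Matrix.of_apply]
      exact Finset.sum_congr rfl fun a _ => mul_comm _ _
    have e2 : pmat W (fun n a x => ψ n x a) n i
        = ∫ x, ∑ a, ∑ b, star (ψ i x a) * W x a b * ψ n x b := by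
      simp only [pmat, mint, Matrix.of_apply]
      refine integral_congr_ae (Eventually.of_forall fun x => ?_)
      simp only [qmat, ymat, Matrix.mul_apply, conjTranspose_apply, transpose_apply,
        Matrix.of_apply, Finset.sum_mul]
      exact Finset.sum_congr rfl fun a _ => Finset.sum_congr rfl fun b _ => by ring
    rw [e1, e2]
    by_cases hni : n = i
    · subst hni
      rw [if_pos rfl, abs_of_neg (hb.2.2 n).1]
      rw [if_pos rfl, mul_one] at hq
      push_cast
      linear_combination -hq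
    · rw [if_neg hni]
      rw [if_neg (Ne.symm hni), mul_zero] at hq
      linear_combination -hq
  rw [tq_sum, tq_sum, ← Finset.sum_sub_distrib]
  refine Finset.sum_congr rfl fun k _ => ?_
  rw [← Finset.sum_sub_distrib]
  refine Finset.sum_congr rfl fun n _ => ?_
  rw [← Finset.sum_sub_distrib]
  simp only [← Complex.sub_re, ← sub_mul, ← mul_sub, h, mul_ite, mul_zero, ite_mul, zero_mul]
  rw [Finset.sum_eq_single n (fun i _ hi => by rw [if_neg (Ne.symm hi)]; simp) (by simp),
    if_pos rfl, mul_right_comm, Complex.star_def, Complex.mul_conj, ← Complex.ofReal_mul,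
    Complex.ofReal_re]

/-- The part of the potential above a level. -/
def above (hi : ℝ) (W : ℝ → Matrix (Fin m) (Fin m) ℂ) (x : ℝ) : Matrix (Fin m) (Fin m) ℂ :=
  fn (fun l => max (l - hi) 0) (W x)

theorem above_le {hi p l : ℝ} (hhi : 0 < hi) (hp : 1 ≤ p) (hl : 0 ≤ l) :
    max (l - hi) 0 ≤ hi ^ (1 - p) * l ^ p := by
  refine max_le ?_ (mul_nonneg (Real.rpow_nonneg hhi.le _) (Real.rpow_nonneg hl _))
  rcases le_or_gt l hi with h | h
  · linarith [mul_nonneg (Real.rpow_nonneg hhi.le (1 - p)) (Real.rpow_nonneg hl p)]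
  · have hl0 : 0 < l := hhi.trans h
    have h1 : l ^ (1 - p) ≤ hi ^ (1 - p) := Real.rpow_le_rpow_of_nonpos hhi h.le (by linarith)
    have h2 := mul_le_mul_of_nonneg_right h1 (Real.rpow_nonneg hl p)
    rw [← Real.rpow_add hl0, sub_add_cancel, Real.rpow_one] at h2
    linarith

/-- **One group.** -/
theorem group_bound {g : ℝ} (hg : 1 / 2 ≤ g) (hg1 : g ≤ 1)
    {W : ℝ → Matrix (Fin m) (Fin m) ℂ} (hW : IsPotentialFor g W) {E : Fin N → ℝ}
    {ψ ψ' : Fin N → ℝ → Fin m → ℂ} (hb : IsBoundStates W E ψ ψ') {η lo hi : ℝ} (hη : 0 < η)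
    (hη1 : η < 1) (hlo : 0 ≤ lo) (hlh : lo ≤ hi) (hhi : 0 < hi) (T : Finset ℤ)
    (hT : ∀ t ∈ T, lo ≤ η * (2 : ℝ) ^ t) (bin : Fin N → ℤ)
    (hbin : ∀ n, (2 : ℝ) ^ bin n ≤ |E n| ∧ |E n| < (2 : ℝ) ^ (bin n + 1)) :
    (1 - 2 * η) * ∑ n, (if bin n ∈ T then |E n| else 0)
      ≤ ltConst / Real.sqrt (1 - η) * (∫ x, sp (fun l => band lo hi l ^ ((3 : ℝ) / 2)) (W x))
        + 2 / η * (∑ t ∈ T, Real.sqrt ((2 : ℝ) ^ t))
            * ∫ x, sp (fun l => max (l - hi) 0) (W x) := by
  classical
  obtain ⟨h1, h2, h3⟩ := id hb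
  have hF := orthFam_of h1 h2
  set Φ : Fin N → Fin m → ℝ → ℂ := fun n a x => ψ n x a with hΦ
  set Φ' : Fin N → Fin m → ℝ → ℂ := fun n a x => ψ' n x a with hΦ'
  set h := above hi W with hh
  set p := g + 1 / 2 with hp
  have hp1 : 1 ≤ p := by linarith
  have hH : ∀ x, (W x).IsHermitian := fun x => (hW.2.1 x).isHermitian
  have hhm : ∀ a b, Measurable fun x => h x a b := fun a b =>
    measurable_fn hW.1 hH ((continuous_id.sub continuous_const).max continuous_const) a b
  have hhp : ∀ x, (h x).PosSemidef := fun x => fn_posSemidef (fun l => le_max_right _ _) _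
  have htr : Integrable fun x => (h x).trace.re :=
    integrable_sp hW ((continuous_id.sub continuous_const).max continuous_const)
      (K := hi ^ (1 - p)) fun l hl => by
        rw [abs_of_nonneg (le_max_right _ _)]; exact above_le hhi hp1 hl
  -- domination
  obtain ⟨B, hB0, hB⟩ := hF.sum_bounded
  have hsum : ∀ (F : ℝ → ℝ), (∀ l, 0 ≤ l → |F l| ≤ l) → ∀ x,
      frobSq (ymat Φ x) * ∑ a, ∑ b, ‖fn F (W x) a b‖
        ≤ (m : ℝ) ^ 2 * ((m : ℝ) * frobSq (ymat Φ x) + B * trPow p (W x)) := by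
    intro F hFl x
    set Λ := (hH x).eigenvalues
    have hl := (hW.2.1 x).eigenvalues_nonneg
    have hent : ∀ a b, ‖fn F (W x) a b‖ ≤ ∑ c, Λ c := fun a b =>
      (fn_entry_le F (hH x) a b).trans (Finset.sum_le_sum fun c _ => hFl _ (hl c))
    have h4 : ∑ a, ∑ b, ‖fn F (W x) a b‖ ≤ (m : ℝ) ^ 2 * ∑ c, Λ c := by
      refine (Finset.sum_le_sum fun a _ => Finset.sum_le_sum fun b _ => hent a b).trans (le_of_eq ?_)
      simp only [Finset.sum_const, Finset.card_univ, Fintype.card_fin, nsmul_eq_mul]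
      ring
    refine (mul_le_mul_of_nonneg_left h4 (frobSq_nonneg _)).trans ?_
    rw [mul_left_comm]
    refine mul_le_mul_of_nonneg_left ?_ (by positivity)
    rw [trPow, dif_pos (hH x), Finset.mul_sum, Finset.mul_sum,
      show (m : ℝ) * frobSq (ymat Φ x) = ∑ _c : Fin m, frobSq (ymat Φ x) by simp,
      ← Finset.sum_add_distrib]
    refine Finset.sum_le_sum fun c _ => ?_
    have hlp : 0 ≤ Λ c ^ p := Real.rpow_nonneg (hl c) _
    rcases le_or_gt (Λ c) 1 with h' | h'
    · nlinarith [frobSq_nonneg (ymat Φ x)]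
    · have : Λ c ≤ Λ c ^ p := Real.self_le_rpow_of_one_le h'.le hp1
      nlinarith [frobSq_nonneg (ymat Φ x), hl c, hB x]
  have hdom : ∀ F : ℝ → ℝ, Continuous F → (∀ l, 0 ≤ l → |F l| ≤ l) →
      Integrable fun x => frobSq (ymat Φ x) * ∑ a, ∑ b, ‖fn F (W x) a b‖ := by
    intro F hFc hFl
    refine Integrable.mono' (((hF.frob_integrable.1.const_mul (m : ℝ)).add
      (hW.2.2.const_mul B)).const_mul ((m : ℝ) ^ 2))
      ((hF.frob_continuous.measurable.mul (Finset.measurable_fun_sum _ fun a _ =>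
        Finset.measurable_fun_sum _ fun b _ => (measurable_fn hW.1 hH hFc a b).norm)).aestronglyMeasurable)
      (Eventually.of_forall fun x => ?_)
    rw [Real.norm_eq_abs]
    exact le_of_eq_of_le (abs_of_nonneg (mul_nonneg (frobSq_nonneg _)
      (Finset.sum_nonneg fun a _ => Finset.sum_nonneg fun b _ => norm_nonneg _))) (hsum F hFl x)
  have hhF : ∀ l, 0 ≤ l → |max (l - hi) 0| ≤ l := fun l hl => by
    rw [abs_of_nonneg (le_max_right _ _)]; exact max_le (by linarith) hl
  have hdh : Integrable fun x => frobSq (ymat Φ x) * ∑ a, ∑ b, ‖h x a b‖ :=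
    hdom _ ((continuous_id.sub continuous_const).max continuous_const) hhF
  have hdW : Integrable fun x => frobSq (ymat Φ x) * ∑ a, ∑ b, ‖W x a b‖ := by
    have := hdom (fun l => l) continuous_id fun l hl => (abs_of_nonneg hl).le
    simpa only [fn_id (hH _)] using this
  -- the subfamilies of the bins
  have hsub : ∀ t : ℤ, ∃ (k : ℕ) (C : Matrix (Fin k) (Fin N) ℂ), C * Cᴴ = 1 ∧
      (∀ i n, bin n ≠ t → C i n = 0) ∧ (∀ n, ∑ i, Complex.normSq (C i n) ≤ 1) ∧
      tq (pmat h Φ) C ≤ η * tq (kin Φ') C + η * (2 : ℝ) ^ t * k ∧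
      (((Finset.univ.filter fun n => bin n = t).card : ℝ) - k)
        * (η * Real.sqrt ((2 : ℝ) ^ t)) ≤ ∫ x, (h x).trace.re := by
    intro t
    set P := fun n => bin n = t
    set ΦP : {n // P n} → Fin m → ℝ → ℂ := fun n => Φ n with hΦP
    set ΦP' : {n // P n} → Fin m → ℝ → ℂ := fun n => Φ' n with hΦP'
    have hP : OrthFam ΦP ΦP' := ⟨fun n => hF.h1 n, fun n j =>
      (hF.orth n j).trans (if_congr Subtype.ext_iff.symm rfl rfl)⟩
    have hdP : Integrable fun x => frobSq (ymat ΦP x) * ∑ a, ∑ b, ‖h x a b‖ := by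
      refine hdh.mono' (hP.frob_continuous.measurable.mul (Finset.measurable_fun_sum _ fun a _ =>
        Finset.measurable_fun_sum _ fun b _ => (hhm a b).norm)).aestronglyMeasurable
        (Eventually.of_forall fun x => ?_)
      have hs0 : 0 ≤ ∑ a, ∑ b, ‖h x a b‖ :=
        Finset.sum_nonneg fun a _ => Finset.sum_nonneg fun b _ => norm_nonneg _
      rw [Real.norm_eq_abs, abs_of_nonneg (mul_nonneg (frobSq_nonneg _) hs0)]
      refine mul_le_mul_of_nonneg_right ?_ hs0
      simp only [Vale.Agent.P371.frobSq_ymat, hΦP]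
      rw [← Finset.sum_subtype (Finset.univ.filter P) (by simp) fun n : Fin N =>
        ∑ s, Complex.normSq (Φ n s x)]
      exact Finset.sum_le_sum_of_subset_of_nonneg (Finset.filter_subset _ _)
        fun n _ _ => Finset.sum_nonneg fun s _ => Complex.normSq_nonneg _
    obtain ⟨k, C, hC1, hC2, hC3, hC4⟩ := subfamily hP hhm hhp hdP htr
      (zpow_pos (two_pos : (0 : ℝ) < 2) t) hη
    have hY : ∀ (Ψ : Fin N → Fin m → ℝ → ℂ) (x : ℝ),
        (C * incl P) * ymat Ψ x = C * ymat (fun n : {n // P n} => Ψ n) x := by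
      intro Ψ x
      rw [Matrix.mul_assoc, incl_mul]
      rfl
    refine ⟨k, C * incl P, ?_, fun i n hn => ?_, fun n => ?_, ?_, ?_⟩
    · rw [conjTranspose_mul, Matrix.mul_assoc, ← Matrix.mul_assoc (incl P), incl_gram,
        Matrix.one_mul, hC1]
    · rw [incl_apply, dif_neg hn]
    · by_cases hn : P n
      · simp only [incl_apply, dif_pos hn]; exact hC2 ⟨n, hn⟩
      · simp only [incl_apply, dif_neg hn, map_zero, Finset.sum_const_zero]; exact zero_le_one
    · rw [← (pmat_integral hF hhm hdh _).2, ← (frob_integral hF _).2.2.2]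
      simp only [hY]
      rw [(pmat_integral hP hhm hdP C).2, (frob_integral hP C).2.2.2]
      exact hC3
    · rw [Fintype.card_subtype] at hC4
      exact hC4
  choose k C hC1 hCsupp hCcol hC3 hC4 using hsub
  let κ := Σ t : T, Fin (k t)
  set Cu : Matrix κ (Fin N) ℂ := Matrix.of fun q n => C q.1 q.2 n with hCu
  have hCu1 : Cu * Cuᴴ = 1 := by
    ext q q'
    obtain ⟨t, i⟩ := q
    obtain ⟨t', i'⟩ := q'
    rw [Matrix.mul_apply, Matrix.one_apply]
    simp only [hCu, Matrix.of_apply, conjTranspose_apply]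
    by_cases ht : t = t'
    · subst ht
      have := congrFun (congrFun (hC1 t) i) i'
      rw [Matrix.mul_apply, Matrix.one_apply] at this
      simp only [conjTranspose_apply] at this
      rw [this]
      by_cases hi' : i = i'
      · simp [hi']
      · rw [if_neg hi', if_neg (fun hq => hi' (by simpa using hq))]
    · rw [if_neg (fun hq => ht (congrArg Sigma.fst hq))]
      refine Finset.sum_eq_zero fun n _ => ?_
      by_cases hn : bin n = (t : ℤ)
      · rw [hCsupp t' i' n (fun hn' => ht (Subtype.ext (hn.symm.trans hn'))), star_zero, mul_zero]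
      · rw [hCsupp t i n hn, zero_mul]
  have hsplit : ∀ M : Matrix (Fin N) (Fin N) ℂ, tq M Cu = ∑ t : T, tq M (C t) := by
    intro M
    simp only [tq_sum, hCu, Matrix.of_apply]
    exact Fintype.sum_sigma _
  have hΨ := orth_comb hF Cu hCu1
  have hY2 : ∀ (Ψ : Fin N → Fin m → ℝ → ℂ) x,
      ymat (fun q a x => ∑ n, Cu q n * Ψ n a x) x = Cu * ymat Ψ x := fun Ψ x => by
    ext q a; simp [ymat, Matrix.mul_apply]
  -- pointwise
  set c := 1 - η with hc
  have hc0 : 0 < c := by linarith
  have hpt : ∀ x, potDens (W x) (Cu * ymat Φ x) ≤ potDens (h x) (Cu * ymat Φ x)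
      + lo * frobSq (Cu * ymat Φ x)
      + ltConst / Real.sqrt c * sp (fun l => band lo hi l ^ ((3 : ℝ) / 2)) (W x)
      + c * (Real.pi ^ 2 / 4 * cubeTr ((Cu * ymat Φ x) * (Cu * ymat Φ x)ᴴ)) := by
    intro x
    set Z := Cu * ymat Φ x
    obtain ⟨hr1, hr3⟩ := rot_spec (hH x) Z
    set r := rot ((hH x).eigenvectorUnitary : Matrix (Fin m) (Fin m) ℂ) Z
    rw [potDens_eig (hH x), hh, above, potDens_fn _ (hH x), sp_eq _ (hH x), ← hr1, Finset.mul_sum,
      Finset.mul_sum]
    refine le_trans ?_ (add_le_add le_rfl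
      (mul_le_mul_of_nonneg_left (mul_le_mul_of_nonneg_left hr3 (by positivity)) hc0.le))
    rw [Finset.mul_sum, Finset.mul_sum, ← Finset.sum_add_distrib, ← Finset.sum_add_distrib,
      ← Finset.sum_add_distrib]
    refine Finset.sum_le_sum fun a _ => ?_
    have hr0 : 0 ≤ r a := rot_nonneg _ _ _
    have h5 := mul_le_mul_of_nonneg_right (cut_le_band lo hi ((hH x).eigenvalues a)) hr0
    have h6 := young_scaled hc0 (band_nonneg hlh ((hH x).eigenvalues a)) hr0
    linarith
  -- integrate
  have hbandc : Continuous fun l => band lo hi l ^ ((3 : ℝ) / 2) :=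
    (continuous_band lo hi).rpow_const fun l => Or.inr (by norm_num)
  have hband : Integrable fun x => sp (fun l => band lo hi l ^ ((3 : ℝ) / 2)) (W x) := by
    refine integrable_sp hW hbandc (K := hi ^ (3 / 2 - p)) fun l hl => ?_
    have h0 := band_nonneg hlh l
    rw [abs_of_nonneg (Real.rpow_nonneg h0 _), show (3 : ℝ) / 2 = (3 / 2 - p) + p by ring,
      Real.rpow_add' h0 (by norm_num), show (3 / 2 - p + p) - p = 3 / 2 - p by ring]
    exact mul_le_mul (Real.rpow_le_rpow h0 (band_le_hi hlo hl) (by linarith))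
      (Real.rpow_le_rpow h0 (band_le_self hlo hl) (by linarith)) (Real.rpow_nonneg h0 _)
      (Real.rpow_nonneg hhi.le _)
  obtain ⟨iW, eW⟩ := pmat_integral hF hW.1 hdW Cu
  obtain ⟨ih, eh⟩ := pmat_integral hF hhm hdh Cu
  obtain ⟨iF, -, eF, eK⟩ := frob_integral hF Cu
  have icube : Integrable fun x => cubeTr ((Cu * ymat Φ x) * (Cu * ymat Φ x)ᴴ) := by
    simpa only [hY2] using hΨ.cube_integrable.2
  have hsharp : Real.pi ^ 2 / 4 * (∫ x, cubeTr ((Cu * ymat Φ x) * (Cu * ymat Φ x)ᴴ))
      ≤ tq (kin Φ') Cu := by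
    have := hΨ.sharp
    simp only [hY2] at this
    rwa [eK] at this
  have hmain := integral_mono iW (((ih.add (iF.const_mul lo)).add
    (hband.const_mul (ltConst / Real.sqrt c))).add ((icube.const_mul _).const_mul c)) hpt
  simp only [Pi.add_apply] at hmain
  have i2 : Integrable fun x => potDens (h x) (Cu * ymat Φ x) + lo * frobSq (Cu * ymat Φ x) :=
    ih.add (iF.const_mul lo)
  have i3 : Integrable fun x => potDens (h x) (Cu * ymat Φ x) + lo * frobSq (Cu * ymat Φ x)
      + ltConst / Real.sqrt c * sp (fun l => band lo hi l ^ ((3 : ℝ) / 2)) (W x) :=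
    i2.add (hband.const_mul _)
  rw [eW, integral_add i3 ((icube.const_mul _).const_mul c),
    integral_add i2 (hband.const_mul _), integral_add ih (iF.const_mul lo), eh, integral_const_mul,
    integral_const_mul, integral_const_mul, integral_const_mul, eF] at hmain
  have hfrob : frobSq Cu = ∑ t : T, (k t : ℝ) := by
    rw [Vale.Agent.P371.frobSq_eq_trace, hCu1, Matrix.trace_one, Fintype.card_sigma]
    simp
  have hkin : tq (kin Φ') Cu = ∑ t : T, tq (kin Φ') (C t) := hsplit _
  have hh3 : tq (pmat h Φ) Cu ≤ η * tq (kin Φ') Cu + η * ∑ t : T, (2 : ℝ) ^ (t : ℤ) * k t := by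
    rw [hsplit, hkin, Finset.mul_sum, Finset.mul_sum, ← Finset.sum_add_distrib]
    exact Finset.sum_le_sum fun t _ => by linarith [hC3 t]
  have hen := energy hb Cu
  have hcube := mul_le_mul_of_nonneg_left hsharp hc0.le
  have hlok : lo * ∑ t : T, (k t : ℝ) ≤ η * ∑ t : T, (2 : ℝ) ^ (t : ℤ) * k t := by
    rw [Finset.mul_sum, Finset.mul_sum]
    refine Finset.sum_le_sum fun t _ => ?_
    rw [← mul_assoc]
    exact mul_le_mul_of_nonneg_right (hT t t.2) (Nat.cast_nonneg _)
  rw [hfrob] at hmain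
  have hkeep : ∑ q, ∑ n, Complex.normSq (Cu q n) * |E n|
      ≤ ltConst / Real.sqrt c * (∫ x, sp (fun l => band lo hi l ^ ((3 : ℝ) / 2)) (W x))
        + 2 * η * ∑ t : T, (2 : ℝ) ^ (t : ℤ) * k t := by
    rw [← hen]
    simp only [hc] at hcube hmain
    linarith
  -- losses in each bin
  set I2 := ∫ x, sp (fun l => max (l - hi) 0) (W x) with hI2
  have hbinwise : ∀ t : T, ∑ n, (if bin n = (t : ℤ) then |E n| else 0)
      ≤ (∑ i, ∑ n, Complex.normSq (C t i n) * |E n|)
          + 2 / η * Real.sqrt ((2 : ℝ) ^ (t : ℤ)) * I2 ∧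
        (2 : ℝ) ^ (t : ℤ) * k t ≤ ∑ n, (if bin n = (t : ℤ) then |E n| else 0) := by
    intro t
    set a := (2 : ℝ) ^ (t : ℤ) with ha
    have ha0 : 0 < a := zpow_pos two_pos _
    set G := Finset.univ.filter fun n => bin n = (t : ℤ) with hG
    set col : Fin N → ℝ := fun n => ∑ i, Complex.normSq (C t i n) with hcol
    have hk : ∑ n ∈ G, col n = k t := by
      have h0 : ∑ n ∈ G, col n = ∑ n, col n := by
        refine Finset.sum_subset (Finset.subset_univ _) fun n _ hn => ?_
        refine Finset.sum_eq_zero fun i _ => ?_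
        rw [hCsupp t i n (fun hn' => hn (by simp [hG, hn'])), map_zero]
      rw [h0, hcol, Finset.sum_comm]
      have := (Vale.Agent.P371.frobSq_eq_trace (C t)).trans (by rw [hC1 t])
      simp only [frobSq] at this
      rw [this, Matrix.trace_one]
      simp
    have hGE : ∑ n, (if bin n = (t : ℤ) then |E n| else 0) = ∑ n ∈ G, |E n| := by
      rw [hG, Finset.sum_filter]
    rw [hGE]
    have hEn : ∀ n ∈ G, a ≤ |E n| ∧ |E n| ≤ 2 * a := fun n hn => by
      have hn' : bin n = (t : ℤ) := (Finset.mem_filter.mp hn).2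
      obtain ⟨u1, u2⟩ := hbin n
      rw [hn'] at u1 u2
      rw [zpow_add_one₀ two_ne_zero] at u2
      exact ⟨u1, by linarith⟩
    refine ⟨?_, ?_⟩
    · have e : ∑ i, ∑ n, Complex.normSq (C t i n) * |E n| = ∑ n ∈ G, col n * |E n| := by
        rw [Finset.sum_comm]
        symm
        simp only [hcol, Finset.sum_mul]
        refine Finset.sum_subset (Finset.subset_univ _) fun n _ hn => ?_
        refine Finset.sum_eq_zero fun i _ => ?_
        rw [hCsupp t i n (fun hn' => hn (by simp [hG, hn'])), map_zero, zero_mul]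
      rw [e]
      have h5 : ∑ n ∈ G, |E n| - ∑ n ∈ G, col n * |E n| ≤ 2 * a * ((G.card : ℝ) - k t) := by
        rw [← hk, Finset.card_eq_sum_ones, Nat.cast_sum, Nat.cast_one, ← Finset.sum_sub_distrib,
          ← Finset.sum_sub_distrib, Finset.mul_sum]
        refine Finset.sum_le_sum fun n hn => ?_
        have hcn : col n ≤ 1 := hCcol t n
        nlinarith [(hEn n hn).2]
      have h6 : ((G.card : ℝ) - k t) * (η * Real.sqrt a) ≤ I2 := hC4 t
      have hs : 0 < Real.sqrt a := Real.sqrt_pos.mpr ha0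
      have h7 : 2 * a * ((G.card : ℝ) - k t) ≤ 2 / η * Real.sqrt a * I2 := by
        have h8 := mul_le_mul_of_nonneg_left h6 (by positivity : 0 ≤ 2 / η * Real.sqrt a)
        refine le_of_eq_of_le ?_ h8
        field_simp
        rw [Real.sq_sqrt ha0.le]
        ring
      linarith
    · rw [← hk, Finset.mul_sum]
      refine Finset.sum_le_sum fun n hn => ?_
      exact (mul_le_of_le_one_right ha0.le (hCcol t n)).trans (hEn n hn).1
  have hS : ∑ n, (if bin n ∈ T then |E n| else 0)
      = ∑ t : T, ∑ n, (if bin n = (t : ℤ) then |E n| else 0) := by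
    rw [Finset.sum_comm]
    refine Finset.sum_congr rfl fun n _ => ?_
    rw [Finset.sum_coe_sort T (fun t => if bin n = t then |E n| else 0), Finset.sum_ite_eq]
  set S := ∑ n, (if bin n ∈ T then |E n| else 0)
  have hkS : ∑ t : T, (2 : ℝ) ^ (t : ℤ) * k t ≤ S := by
    rw [hS]; exact Finset.sum_le_sum fun t _ => (hbinwise t).2
  have hloss : S ≤ (∑ q, ∑ n, Complex.normSq (Cu q n) * |E n|)
      + 2 / η * (∑ t ∈ T, Real.sqrt ((2 : ℝ) ^ t)) * I2 := by
    rw [hS, Fintype.sum_sigma, ← Finset.sum_coe_sort T fun t => Real.sqrt ((2 : ℝ) ^ t),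
      Finset.mul_sum, Finset.sum_mul, ← Finset.sum_add_distrib]
    exact Finset.sum_le_sum fun t _ => (hbinwise t).1
  have := mul_le_mul_of_nonneg_left hkS (by positivity : 0 ≤ 2 * η)
  linarith

end

end Vale.Agent.P371.LT
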