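import Vale.Agent.P371.Below.Group
import Vale.Agent.P371.Lower
import Mathlib.Analysis.SpecialFunctions.Gamma.Deriv
import Mathlib.Data.Int.Log

/-! # The Lieb–Thirring constant as `γ` increases to one

Dyadic energy bins are grouped, and one offset is chosen so that the bins between consecutive
groups carry a small part of the sum.  Inside a group `λ ^ γ` is linear in `λ` up to a factor that
tends to one as `γ → 1`.
-/

namespace Vale.Agent.P371.LT

open MeasureTheory Filter Topology Matrix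
open scoped ComplexOrder

noncomputable section

variable {m N : ℕ}

/-- Every bin is removed by exactly one offset. -/
theorem offset_iff {J q : ℕ} (hq : 0 < q) (b : ℤ) {j : ℕ} (hj : j < J) :
    (b - j * q) % ((J : ℤ) * q) < q ↔ j = ((b % ((J : ℤ) * q)).toNat / q) := by
  have hP : (0 : ℤ) < (J : ℤ) * q :=
    mul_pos (by exact_mod_cast (Nat.zero_le j).trans_lt hj) (by exact_mod_cast hq)
  set P : ℤ := (J : ℤ) * q with hPdef
  obtain ⟨r, hr⟩ : ∃ r : ℕ, b % P = r := ⟨(b % P).toNat, (Int.toNat_of_nonneg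
    (Int.emod_nonneg _ hP.ne')).symm⟩
  have hrP : (r : ℤ) < P := hr ▸ Int.emod_lt_of_pos _ hP
  have e : (b - j * q) % P = ((r : ℤ) - j * q) % P := by
    rw [← hr, Int.emod_sub_emod]
  rw [e, hr, Int.toNat_natCast]
  have hjq : ((j + 1) * q : ℕ) ≤ J * q := Nat.mul_le_mul_right q hj
  rw [Nat.succ_mul] at hjq
  have hjq' : (j : ℤ) * q + q ≤ P := by rw [hPdef]; exact_mod_cast hjq
  have hiff : j = r / q ↔ j * q ≤ r ∧ r < j * q + q := by
    rw [eq_comm, Nat.div_eq_iff hq]
    constructor <;> intro h <;> omega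
  rw [hiff]
  have h0 : (0 : ℤ) ≤ (j : ℤ) * q := by positivity
  rcases le_or_gt ((j : ℤ) * q) r with h | h
  · rw [Int.emod_eq_of_lt (by linarith) (by linarith)]
    constructor
    · intro h1
      exact ⟨by exact_mod_cast h, by exact_mod_cast (by linarith : (r : ℤ) < j * q + q)⟩
    · intro h1
      have : (r : ℤ) < j * q + q := by exact_mod_cast h1.2
      linarith
  · rw [← Int.add_emod_right, Int.emod_eq_of_lt (by linarith [Int.natCast_nonneg r]) (by linarith)]
    constructor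
    · intro h1; linarith [Int.natCast_nonneg r]
    · intro h1
      have : (j : ℤ) * q ≤ r := by exact_mod_cast h1.1
      linarith

theorem sqrt_two_zpow (t : ℤ) : Real.sqrt ((2 : ℝ) ^ t) = Real.sqrt 2 ^ t := by
  rw [Real.sqrt_eq_iff_eq_sq (zpow_nonneg (by norm_num) t) (zpow_nonneg (Real.sqrt_nonneg 2) t),
    sq, ← mul_zpow, Real.mul_self_sqrt (by norm_num)]

theorem sum_sqrt_le (T : Finset ℤ) (t : ℤ) (h : ∀ s ∈ T, s < t) :
    ∑ s ∈ T, Real.sqrt ((2 : ℝ) ^ s) ≤ 3 * Real.sqrt ((2 : ℝ) ^ t) := by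
  simp only [sqrt_two_zpow]
  have h2 : (4 : ℝ) / 3 ≤ Real.sqrt 2 := Real.le_sqrt_of_sq_le (by norm_num)
  have h1 := geom_le (by linarith : 1 < Real.sqrt 2) T t h
  have h3 : 0 ≤ ∑ s ∈ T, Real.sqrt 2 ^ s :=
    Finset.sum_nonneg fun s _ => zpow_nonneg (Real.sqrt_nonneg 2) s
  nlinarith

/-- The bands of all groups are controlled by the `p`-th power. -/
theorem bands_le {g R η : ℝ} (hg : 1 / 2 ≤ g) (hg1 : g ≤ 1) (hη : 0 < η) (hη1 : η ≤ 1)
    (a0 : ℤ → ℝ) (ha0 : ∀ s, 0 < a0 s) (hmono : Monotone fun s => η * a0 s)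
    (hR : ∀ s, (a0 (s + 1) / a0 s) ^ (1 - g) ≤ R) {l : ℝ} (hl : 0 ≤ l) (S : Finset ℤ) :
    ∑ s ∈ S, a0 s ^ (g - 1) * band (η * a0 s) (η * a0 (s + 1)) l ^ ((3 : ℝ) / 2)
      ≤ R * l ^ (g + 1 / 2) := by
  have hR0 : 0 ≤ R := le_trans (Real.rpow_nonneg (div_nonneg (ha0 1).le (ha0 0).le) _) (hR 0)
  have hb : ∀ s, 0 ≤ band (η * a0 s) (η * a0 (s + 1)) l := fun s =>
    band_nonneg (hmono (by linarith)) l
  refine (Finset.sum_le_sum (g := fun s => R * band (η * a0 s) (η * a0 (s + 1)) l ^ (g + 1 / 2))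
    fun s _ => ?_).trans ?_
  · set B := band (η * a0 s) (η * a0 (s + 1)) l
    have hBhi : B ≤ a0 (s + 1) := (band_le_hi (mul_pos hη (ha0 s)).le hl).trans
      (mul_le_of_le_one_left (ha0 _).le hη1)
    rw [show (3 : ℝ) / 2 = (1 - g) + (g + 1 / 2) by ring, Real.rpow_add' (hb s) (fun h => by linarith),
      ← mul_assoc]
    refine mul_le_mul_of_nonneg_right ?_ (Real.rpow_nonneg (hb s) _)
    refine le_trans ?_ (hR s)
    rw [Real.div_rpow (ha0 _).le (ha0 s).le, div_eq_mul_inv, ← Real.rpow_neg (ha0 s).le,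
      neg_sub, mul_comm]
    exact mul_le_mul_of_nonneg_right (Real.rpow_le_rpow (hb s) hBhi (by linarith))
      (Real.rpow_nonneg (ha0 s).le _)
  · rw [← Finset.mul_sum]
    exact mul_le_mul_of_nonneg_left (sum_band_rpow_le (by linarith) (fun s _ => hb s) hl
      (sum_band_le hmono (fun s => (mul_pos hη (ha0 s)).le) hl S)) hR0

/-- The parts above the bands are controlled by the `p`-th power. -/
theorem high_le {g c B : ℝ} (hg : 1 / 2 ≤ g) (hc : 0 < c) (hB : 0 < B)
    (hB2 : 2 ≤ B ^ (g - 1 / 2)) {l : ℝ} (hl : 0 ≤ l) (S : Finset ℤ) :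
    ∑ s ∈ S, (c * B ^ s) ^ (g - 1 / 2) * max (l - c * B ^ s) 0 ≤ 2 * l ^ (g + 1 / 2) := by
  classical
  set β := g - 1 / 2
  have hpos : ∀ s : ℤ, 0 < c * B ^ s := fun s => mul_pos hc (zpow_pos hB s)
  have h1 : ∀ s ∈ S, (c * B ^ s) ^ β * max (l - c * B ^ s) 0
      ≤ (if c * B ^ s < l then (c * B ^ s) ^ β else 0) * l := fun s _ => by
    split_ifs with h
    · exact mul_le_mul_of_nonneg_left (max_le (by linarith [hpos s]) hl)
        (Real.rpow_nonneg (hpos s).le _)
    · rw [max_eq_right (by linarith), mul_zero, zero_mul]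
  refine (Finset.sum_le_sum h1).trans ?_
  rw [← Finset.sum_mul, ← Finset.sum_filter]
  set F := S.filter fun s => c * B ^ s < l
  rcases F.eq_empty_or_nonempty with hF | hF
  · rw [hF, Finset.sum_empty, zero_mul]
    exact mul_nonneg (by norm_num) (Real.rpow_nonneg hl _)
  set t := F.max' hF
  have htl : c * B ^ t < l := (Finset.mem_filter.mp (Finset.max'_mem F hF)).2
  have hl0 : 0 < l := (hpos t).trans htl
  have e : ∀ s : ℤ, (c * B ^ s) ^ β = c ^ β * (B ^ β) ^ s := fun s => by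
    rw [Real.mul_rpow hc.le (zpow_pos hB s).le, ← Real.rpow_intCast, ← Real.rpow_intCast,
      ← Real.rpow_mul hB.le, ← Real.rpow_mul hB.le, mul_comm (s : ℝ)]
  have h2 := geom_le (by linarith : 1 < B ^ β) F (t + 1) fun s hs =>
    Int.lt_add_one_iff.mpr (Finset.le_max' F s hs)
  rw [zpow_add_one₀ (Real.rpow_pos_of_pos hB β).ne'] at h2
  have h3 : ∑ s ∈ F, (B ^ β) ^ s ≤ 2 * (B ^ β) ^ t := by
    have h0 : 0 < (B ^ β) ^ t := zpow_pos (Real.rpow_pos_of_pos hB β) t
    have h5 : B ^ β * (B ^ β) ^ t ≤ 2 * (B ^ β - 1) * (B ^ β) ^ t :=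
      mul_le_mul_of_nonneg_right (by linarith) h0.le
    nlinarith
  calc (∑ s ∈ F, (c * B ^ s) ^ β) * l ≤ (2 * (c * B ^ t) ^ β) * l := by
        refine mul_le_mul_of_nonneg_right ?_ hl
        simp only [e, ← Finset.mul_sum]
        rw [mul_left_comm]
        exact mul_le_mul_of_nonneg_left h3 (Real.rpow_nonneg hc.le _)
    _ ≤ (2 * l ^ β) * l := by
        gcongr
    _ = 2 * l ^ (g + 1 / 2) := by
        rw [mul_assoc, show g + 1 / 2 = β + 1 by ring, Real.rpow_add_one hl0.ne']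

/-- The bound with explicit parameters. -/
theorem below_param {η : ℝ} (hη : 0 < η) (hη8 : η ≤ 1 / 8) {J q : ℕ} (hJ : 4 ≤ J)
    (hJη : (1 : ℝ) ≤ η * J) (hq : 0 < q)
    (hM : 36 / η ^ 2 ≤ (η * 2 ^ q) ^ ((1 : ℝ) / 4)) {g : ℝ} (hg : 3 / 4 ≤ g) (hg1 : g ≤ 1)
    (hR : ((2 : ℝ) ^ (J * q)) ^ (1 - g) ≤ 1 + η)
    {W : ℝ → Matrix (Fin m) (Fin m) ℂ} (hW : IsPotentialFor g W) {E : Fin N → ℝ}
    {ψ ψ' : Fin N → ℝ → Fin m → ℂ} (hb : IsBoundStates W E ψ ψ') :
    (1 - 2 * η) * (1 - η) * ∑ n, |E n| ^ g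
      ≤ (1 + η) * (ltConst / Real.sqrt (1 - η) + η) * ∫ x, trPow (g + 1 / 2) (W x) := by
  classical
  set S := ∑ n, |E n| ^ g with hS
  have hE0 : ∀ n, 0 < |E n| := fun n => abs_pos.mpr (hb.2.2 n).1.ne
  set bin : Fin N → ℤ := fun n => Int.log 2 |E n| with hbindef
  have hbin : ∀ n, (2 : ℝ) ^ bin n ≤ |E n| ∧ |E n| < (2 : ℝ) ^ (bin n + 1) := fun n => by
    refine ⟨?_, ?_⟩
    · simpa using Int.zpow_log_le_self (b := 2) one_lt_two (hE0 n)
    · simpa using Int.lt_zpow_succ_log_self (b := 2) one_lt_two (|E n|)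
  set P : ℤ := (J : ℤ) * q with hP
  have hP0 : 0 < P := by positivity
  -- the offset
  obtain ⟨j, hjJ, hj⟩ : ∃ j ∈ Finset.range J,
      ∑ n, (if (bin n - j * q) % P < q then |E n| ^ g else 0) ≤ η * S := by
    refine Finset.exists_le_of_sum_le (by simp; omega) ?_
    rw [Finset.sum_comm, Finset.sum_const, Finset.card_range, nsmul_eq_mul]
    have e : ∀ n, (∑ j ∈ Finset.range J, if (bin n - j * q) % P < q then |E n| ^ g else 0)
        = |E n| ^ g := by
      intro n
      have hr : ((bin n % P).toNat / q) ∈ Finset.range J := by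
        rw [Finset.mem_range, Nat.div_lt_iff_lt_mul hq]
        have h1 := Int.emod_lt_of_pos (bin n) hP0
        have h2 := Int.emod_nonneg (bin n) hP0.ne'
        have h3 : ((bin n % P).toNat : ℤ) < ((J * q : ℕ) : ℤ) := by
          rw [Int.toNat_of_nonneg h2]; push_cast; exact h1
        exact_mod_cast h3
      rw [Finset.sum_eq_single _ (fun k hk hne => if_neg fun h =>
        hne ((offset_iff hq (bin n) (Finset.mem_range.mp hk)).mp h)) (fun h => absurd hr h),
        if_pos ((offset_iff hq (bin n) (Finset.mem_range.mp hr)).mpr rfl)]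
    simp only [e]
    have hS0 : 0 ≤ S := Finset.sum_nonneg fun n _ => Real.rpow_nonneg (abs_nonneg _) _
    calc S = 1 * S := (one_mul S).symm
      _ ≤ (η * J) * S := mul_le_mul_of_nonneg_right hJη hS0
      _ = (J : ℝ) * (η * S) := by ring
  -- the groups
  set base : ℤ → ℤ := fun s => (j : ℤ) * q + P * s + q with hbase
  set a0 : ℤ → ℝ := fun s => (2 : ℝ) ^ base s with ha0def
  have ha0 : ∀ s, 0 < a0 s := fun s => zpow_pos two_pos _
  have hnext : ∀ s, a0 (s + 1) = a0 s * 2 ^ (J * q) := fun s => by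
    rw [ha0def, ← zpow_natCast, ← zpow_add₀ two_ne_zero]
    simp only [hbase, hP]; push_cast; ring
  have hmono : Monotone fun s => η * a0 s := by
    refine monotone_int_of_le_succ fun s => mul_le_mul_of_nonneg_left ?_ hη.le
    rw [hnext]
    exact le_mul_of_one_le_right (ha0 s).le (one_le_pow₀ one_le_two)
  set T : ℤ → Finset ℤ := fun s => Finset.Ico (base s) (base s + (P - q)) with hT
  set own : Fin N → ℤ := fun n => (bin n - j * q) / P
  set G := (Finset.univ : Finset (Fin N)).image own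
  have hkeep : ∀ n, ¬ (bin n - j * q) % P < q → bin n ∈ T (own n) := by
    intro n hn
    have h1 := Int.emod_lt_of_pos (bin n - j * q) hP0
    have h2 : (bin n - j * q) % P + P * own n = bin n - j * q :=
      Int.emod_add_mul_ediv (bin n - j * q) P
    simp only [hT, Finset.mem_Ico, hbase]
    constructor <;> linarith [not_lt.mp hn]
  have hsplit : (1 - η) * S ≤ ∑ s ∈ G, ∑ n, (if bin n ∈ T s then |E n| ^ g else 0) := by
    rw [Finset.sum_comm]
    have : (1 - η) * S ≤ S - ∑ n, (if (bin n - j * q) % P < q then |E n| ^ g else 0) := by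
      linarith
    refine this.trans ?_
    rw [hS, ← Finset.sum_sub_distrib]
    refine Finset.sum_le_sum fun n _ => ?_
    have h0 : ∀ s, 0 ≤ if bin n ∈ T s then |E n| ^ g else 0 := fun s => by
      split_ifs
      · exact Real.rpow_nonneg (abs_nonneg _) _
      · exact le_rfl
    split_ifs with h
    · rw [sub_self]; exact Finset.sum_nonneg fun s _ => h0 s
    · rw [sub_zero]
      refine le_trans (le_of_eq ?_) (Finset.single_le_sum (fun s _ => h0 s)
        (Finset.mem_image_of_mem own (Finset.mem_univ n)))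
      rw [if_pos (hkeep n h)]
  -- one group
  set R := ((2 : ℝ) ^ (J * q)) ^ (1 - g) with hRdef
  set M := η * (2 : ℝ) ^ q with hMdef
  set I := ∫ x, trPow (g + 1 / 2) (W x) with hI
  have hM1 : 1 ≤ M := by
    by_contra hlt
    have h1 : M ^ ((1 : ℝ) / 4) ≤ 1 :=
      Real.rpow_le_one (by positivity) (not_le.mp hlt).le (by norm_num)
    have h2 : (1 : ℝ) < 36 / η ^ 2 := by
      rw [lt_div_iff₀ (by positivity)]; nlinarith
    linarith
  have hM0 : 0 < M := by linarith
  set β := g - 1 / 2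
  set hi : ℤ → ℝ := fun s => η * a0 (s + 1)
  have hgroup : ∀ s, (1 - 2 * η) * ∑ n, (if bin n ∈ T s then |E n| ^ g else 0)
      ≤ ltConst / Real.sqrt (1 - η)
          * (∫ x, a0 s ^ (g - 1) * sp (fun l => band (η * a0 s) (hi s) l ^ ((3 : ℝ) / 2)) (W x))
        + 6 / η * R * M ^ (-((1 : ℝ) / 4))
          * ∫ x, hi s ^ β * sp (fun l => max (l - hi s) 0) (W x) := by
    intro s
    have hlh : η * a0 s ≤ hi s := hmono (by linarith)
    have h := group_bound (by linarith) hg1 hW hb hη (by linarith) (mul_pos hη (ha0 s)).le hlh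
      (mul_pos hη (ha0 _)) (T s) (fun t ht => mul_le_mul_of_nonneg_left
        (zpow_le_zpow_right₀ one_le_two (Finset.mem_Ico.mp ht).1) hη.le) bin hbin
    have hmu : 0 ≤ a0 s ^ (g - 1) := Real.rpow_nonneg (ha0 s).le _
    have h1 : ∑ n, (if bin n ∈ T s then |E n| ^ g else 0)
        ≤ a0 s ^ (g - 1) * ∑ n, (if bin n ∈ T s then |E n| else 0) := by
      rw [Finset.mul_sum]
      refine Finset.sum_le_sum fun n _ => ?_
      split_ifs with hn
      · have h3 : a0 s ≤ |E n| :=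
          (zpow_le_zpow_right₀ one_le_two (Finset.mem_Ico.mp hn).1).trans (hbin n).1
        calc |E n| ^ g = |E n| ^ (g - 1) * |E n| := by
              rw [← Real.rpow_add_one (hE0 n).ne', sub_add_cancel]
          _ ≤ a0 s ^ (g - 1) * |E n| := mul_le_mul_of_nonneg_right
              (Real.rpow_le_rpow_of_nonpos (ha0 s) h3 (by linarith)) (abs_nonneg _)
      · rw [mul_zero]
    have h2 := mul_le_mul_of_nonneg_left h hmu
    rw [integral_const_mul, integral_const_mul]
    have h4 : a0 s ^ (g - 1) * (2 / η * ∑ t ∈ T s, Real.sqrt ((2 : ℝ) ^ t))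
        ≤ 6 / η * R * M ^ (-((1 : ℝ) / 4)) * hi s ^ β := by
      set A := (2 : ℝ) ^ (base s + (P - q)) with hA
      have hA0 : 0 < A := zpow_pos two_pos _
      have hs1 : ∑ t ∈ T s, Real.sqrt ((2 : ℝ) ^ t) ≤ 3 * Real.sqrt A :=
        sum_sqrt_le _ _ fun t ht => (Finset.mem_Ico.mp ht).2
      have hAh : hi s = M * A := by
        have : hi s = η * (2 ^ base (s + 1)) := rfl
        rw [this, hMdef, hA, mul_assoc, ← zpow_natCast (2 : ℝ) q, ← zpow_add₀ two_ne_zero]
        congr 2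
        simp only [hbase]; ring
      have hAa : A ≤ a0 s * 2 ^ (J * q) := by
        rw [← hnext, hA]
        refine zpow_le_zpow_right₀ one_le_two ?_
        simp only [hbase]; linarith [Int.natCast_nonneg q]
      have h5 : a0 s ^ (g - 1) ≤ R * A ^ (g - 1) := by
        have hD : (0 : ℝ) < 2 ^ (J * q) := by positivity
        have h6 : (A / 2 ^ (J * q)) ≤ a0 s := by rw [div_le_iff₀ hD]; exact hAa
        refine (Real.rpow_le_rpow_of_nonpos (div_pos hA0 hD) h6 (by linarith)).trans (le_of_eq ?_)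
        rw [Real.div_rpow hA0.le hD.le, hRdef, show g - 1 = -(1 - g) by ring,
          Real.rpow_neg hA0.le, Real.rpow_neg hD.le]
        field_simp
      have h7 : A ^ (g - 1) * Real.sqrt A ≤ M ^ (-((1 : ℝ) / 4)) * hi s ^ β := by
        rw [hAh, Real.sqrt_eq_rpow, ← Real.rpow_add hA0, Real.mul_rpow hM0.le hA0.le,
          ← mul_assoc, ← Real.rpow_add hM0, show g - 1 + 1 / 2 = β by simp only [β]; ring]
        exact le_mul_of_one_le_left (Real.rpow_nonneg hA0.le _)
          (Real.one_le_rpow hM1 (by simp only [β]; linarith))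
      have hR0 : 0 ≤ R := Real.rpow_nonneg (by positivity) _
      calc a0 s ^ (g - 1) * (2 / η * ∑ t ∈ T s, Real.sqrt ((2 : ℝ) ^ t))
          ≤ (R * A ^ (g - 1)) * (2 / η * (3 * Real.sqrt A)) := by gcongr
        _ = 6 / η * R * (A ^ (g - 1) * Real.sqrt A) := by ring
        _ ≤ 6 / η * R * (M ^ (-((1 : ℝ) / 4)) * hi s ^ β) := by gcongr
        _ = _ := by ring
    have hI2 : 0 ≤ ∫ x, sp (fun l => max (l - hi s) 0) (W x) := integral_nonneg fun x => by
      rw [sp_eq _ (hW.2.1 x).isHermitian]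
      exact Finset.sum_nonneg fun c _ => le_max_right _ _
    have h8 := mul_le_mul_of_nonneg_right h4 hI2
    have h9 := mul_le_mul_of_nonneg_left h1 (by linarith : (0 : ℝ) ≤ 1 - 2 * η)
    linarith
  have hgsum := (mul_le_mul_of_nonneg_left hsplit (by linarith : (0 : ℝ) ≤ 1 - 2 * η)).trans
    ((le_of_eq (Finset.mul_sum _ _ _)).trans (Finset.sum_le_sum fun s _ => hgroup s))
  rw [Finset.sum_add_distrib, ← Finset.mul_sum, ← Finset.mul_sum] at hgsum
  -- the two pointwise sums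
  have hH : ∀ x, (W x).IsHermitian := fun x => (hW.2.1 x).isHermitian
  have hp1 : 1 ≤ g + 1 / 2 := by linarith
  have hhipos : ∀ s, 0 < hi s := fun s => mul_pos hη (ha0 _)
  have hbandi : ∀ s, Integrable fun x =>
      a0 s ^ (g - 1) * sp (fun l => band (η * a0 s) (hi s) l ^ ((3 : ℝ) / 2)) (W x) := by
    intro s
    refine (integrable_sp hW ((continuous_band _ _).rpow_const fun l => Or.inr (by norm_num))
      (K := hi s ^ (1 - g)) fun l hl => ?_).const_mul _
    have h0 := band_nonneg (hmono (by linarith : s ≤ s + 1)) l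
    rw [abs_of_nonneg (Real.rpow_nonneg h0 _), show (3 : ℝ) / 2 = (1 - g) + (g + 1 / 2) by ring,
      Real.rpow_add' h0 (fun h => by linarith)]
    exact mul_le_mul (Real.rpow_le_rpow h0 (band_le_hi (mul_pos hη (ha0 s)).le hl) (by linarith))
      (Real.rpow_le_rpow h0 (band_le_self (mul_pos hη (ha0 s)).le hl) (by linarith))
      (Real.rpow_nonneg h0 _) (Real.rpow_nonneg (hhipos s).le _)
  have hhighi : ∀ s, Integrable fun x => hi s ^ β * sp (fun l => max (l - hi s) 0) (W x) := fun s =>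
    (integrable_sp hW ((continuous_id.sub continuous_const).max continuous_const)
      (K := hi s ^ (1 - (g + 1 / 2))) fun l hl => by
        rw [abs_of_nonneg (le_max_right _ _)]; exact above_le (hhipos s) hp1 hl).const_mul _
  have hsum1 : ∑ s ∈ G, ∫ x, a0 s ^ (g - 1)
      * sp (fun l => band (η * a0 s) (hi s) l ^ ((3 : ℝ) / 2)) (W x) ≤ R * I := by
    rw [← integral_finsetSum _ fun s _ => hbandi s, hI, ← integral_const_mul]
    refine integral_mono (integrable_finsetSum _ fun s _ => hbandi s) (hW.2.2.const_mul R)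
      fun x => ?_
    simp only [trPow, dif_pos (hH x), sp_eq _ (hH x), Finset.mul_sum]
    rw [Finset.sum_comm]
    refine Finset.sum_le_sum fun c _ => ?_
    refine bands_le (by linarith) hg1 hη (by linarith) a0 ha0 hmono (fun s => le_of_eq ?_)
      ((hW.2.1 x).eigenvalues_nonneg c) G
    rw [hnext, mul_div_cancel_left₀ _ (ha0 s).ne']
  have hsum2 : ∑ s ∈ G, ∫ x, hi s ^ β * sp (fun l => max (l - hi s) 0) (W x) ≤ 2 * I := by
    rw [← integral_finsetSum _ fun s _ => hhighi s, hI, ← integral_const_mul]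
    refine integral_mono (integrable_finsetSum _ fun s _ => hhighi s) (hW.2.2.const_mul 2)
      fun x => ?_
    simp only [trPow, dif_pos (hH x), sp_eq _ (hH x), Finset.mul_sum]
    rw [Finset.sum_comm]
    refine Finset.sum_le_sum fun c _ => ?_
    have e : ∀ s, hi s = (η * a0 1) * ((2 : ℝ) ^ (J * q)) ^ s := fun s => by
      show η * (2 : ℝ) ^ base (s + 1) = η * (2 : ℝ) ^ base 1 * _
      rw [← zpow_natCast (2 : ℝ) (J * q), ← _root_.zpow_mul, mul_assoc, ← zpow_add₀ two_ne_zero]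
      congr 2
      simp only [hbase, hP]; push_cast; ring
    simp only [e]
    refine high_le (by linarith) (mul_pos hη (ha0 1)) (by positivity) ?_
      ((hW.2.1 x).eigenvalues_nonneg c) G
    rw [← Real.rpow_natCast_mul (by norm_num : (0 : ℝ) ≤ 2)]
    calc (2 : ℝ) = 2 ^ (1 : ℝ) := (Real.rpow_one 2).symm
      _ ≤ _ := by
        refine Real.rpow_le_rpow_of_exponent_le one_le_two ?_
        have hJq : (4 : ℝ) ≤ ((J * q : ℕ) : ℝ) := by
          exact_mod_cast le_trans hJ (Nat.le_mul_of_pos_right J hq)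
        nlinarith
  have hI0 : 0 ≤ I := integral_nonneg fun x => by
    rw [trPow, dif_pos (hH x)]
    exact Finset.sum_nonneg fun c _ => Real.rpow_nonneg ((hW.2.1 x).eigenvalues_nonneg c) _
  have hR0 : 0 ≤ R := Real.rpow_nonneg (by positivity) _
  have hMsmall : 12 / η * M ^ (-((1 : ℝ) / 4)) ≤ η := by
    have hpos : (0 : ℝ) < M ^ ((1 : ℝ) / 4) := Real.rpow_pos_of_pos hM0 _
    rw [Real.rpow_neg hM0.le, ← div_eq_mul_inv, div_le_iff₀ hpos]
    have h1 := mul_le_mul_of_nonneg_left hM hη.le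
    have h2 : η * (36 / η ^ 2) = 36 / η := by field_simp
    have h3 : (12 : ℝ) / η ≤ 36 / η := by gcongr; norm_num
    linarith
  have hL0 : 0 ≤ ltConst / Real.sqrt (1 - η) :=
    div_nonneg (by unfold ltConst; positivity) (Real.sqrt_nonneg _)
  have h6 : 0 ≤ 6 / η * R * M ^ (-((1 : ℝ) / 4)) :=
    mul_nonneg (mul_nonneg (by positivity) hR0) (Real.rpow_nonneg hM0.le _)
  have a1 := mul_le_mul_of_nonneg_left hsum1 hL0
  have a2 := mul_le_mul_of_nonneg_left hsum2 h6
  have a3 := mul_le_mul_of_nonneg_left hMsmall (mul_nonneg hR0 hI0)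
  have a4 := mul_le_mul_of_nonneg_right hR (mul_nonneg (add_nonneg hL0 hη.le) hI0)
  ring_nf at hgsum a1 a2 a3 a4 ⊢
  linarith

/-- The upper bound near `γ = 1`. -/
theorem below_upper {ε : ℝ} (hε : 0 < ε) :
    ∃ δ : ℝ, 0 < δ ∧ ∀ g : ℝ, 1 - δ < g → g < 1 → ∀ (m N : ℕ)
      (W : ℝ → Matrix (Fin m) (Fin m) ℂ) (E : Fin N → ℝ) (ψ ψ' : Fin N → ℝ → Fin m → ℂ),
      IsPotentialFor g W → IsBoundStates W E ψ ψ' →
      ∑ n, |E n| ^ g ≤ (ltConst + ε) * ∫ x, trPow (g + 1 / 2) (W x) := by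
  set F : ℝ → ℝ := fun η =>
    (1 + η) * (ltConst / Real.sqrt (1 - η) + η) / ((1 - 2 * η) * (1 - η)) with hF
  have hFc : ContinuousAt F 0 := by
    have h1 : ContinuousAt (fun η : ℝ => ltConst / Real.sqrt (1 - η)) 0 :=
      continuousAt_const.div (continuousAt_const.sub continuousAt_id).sqrt (by simp)
    exact ((continuousAt_const.add continuousAt_id).mul (h1.add continuousAt_id)).div
      ((continuousAt_const.sub (continuousAt_const.mul continuousAt_id)).mul
        (continuousAt_const.sub continuousAt_id)) (by simp)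
  have hF0 : F 0 < ltConst + ε := by simp [hF, hε]
  obtain ⟨r, hr0, hr⟩ := Metric.eventually_nhds_iff.mp (hFc.eventually_lt_const hF0)
  set η := min (r / 2) (1 / 8)
  have hη : 0 < η := lt_min (half_pos hr0) (by norm_num)
  have hη8 : η ≤ 1 / 8 := min_le_right _ _
  have hFη : F η < ltConst + ε := hr (by
    rw [Real.dist_eq, sub_zero, abs_of_pos hη]
    exact lt_of_le_of_lt (min_le_left _ _) (half_lt_self hr0))
  obtain ⟨J, hJ⟩ := exists_nat_ge (1 / η + 4)
  have hJ4 : 4 ≤ J := by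
    exact_mod_cast (show (4 : ℝ) ≤ J by linarith [(by positivity : 0 ≤ 1 / η)])
  have hJη : (1 : ℝ) ≤ η * J := by
    have h1 := mul_le_mul_of_nonneg_left hJ hη.le
    have h2 : η * (1 / η) = 1 := by field_simp
    linarith
  obtain ⟨q, hq⟩ := pow_unbounded_of_one_lt ((36 / η ^ 2) ^ 4 / η) (one_lt_two : (1 : ℝ) < 2)
  rw [div_lt_iff₀ hη] at hq
  have hq0 : 0 < q := by
    rcases Nat.eq_zero_or_pos q with rfl | h
    · exfalso
      have h2 : (1 : ℝ) ≤ 36 / η ^ 2 := by rw [le_div_iff₀ (by positivity)]; nlinarith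
      have := one_le_pow₀ (n := 4) h2
      simp at hq
      linarith
    · exact h
  have hM : 36 / η ^ 2 ≤ (η * 2 ^ q) ^ ((1 : ℝ) / 4) := by
    rw [mul_comm] at hq
    calc 36 / η ^ 2 = ((36 / η ^ 2) ^ (4 : ℕ)) ^ ((1 : ℝ) / 4) := by
          rw [← Real.rpow_natCast_mul (by positivity)]; norm_num
      _ ≤ _ := Real.rpow_le_rpow (by positivity) hq.le (by norm_num)
  obtain ⟨δ, hδ0, hδ⟩ : ∃ δ : ℝ, 0 < δ ∧ ∀ g, 1 - δ < g → g < 1 →
      ((2 : ℝ) ^ (J * q)) ^ (1 - g) ≤ 1 + η ∧ 3 / 4 ≤ g := by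
    have hc : ContinuousAt (fun g : ℝ => ((2 : ℝ) ^ (J * q)) ^ (1 - g)) 1 :=
      (Real.continuousAt_const_rpow (by positivity)).comp (continuousAt_const.sub continuousAt_id)
    obtain ⟨d, hd0, hd⟩ := Metric.eventually_nhds_iff.mp
      (hc.eventually_le_const (show ((2 : ℝ) ^ (J * q)) ^ (1 - (1 : ℝ)) < 1 + η by simp [hη]))
    refine ⟨min d (1 / 4), lt_min hd0 (by norm_num), fun g h1 h2 => ⟨hd ?_, ?_⟩⟩
    · rw [Real.dist_eq, abs_lt]
      constructor <;> linarith [min_le_left d (1 / 4)]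
    · linarith [min_le_right d (1 / 4)]
  refine ⟨δ, hδ0, fun g h1 h2 m N W E ψ ψ' hW hb => ?_⟩
  obtain ⟨hR, hg⟩ := hδ g h1 h2
  have h := below_param hη hη8 hJ4 hJη hq0 hM hg h2.le hR hW hb
  have hden : 0 < (1 - 2 * η) * (1 - η) := mul_pos (by linarith) (by linarith)
  have hI0 : 0 ≤ ∫ x, trPow (g + 1 / 2) (W x) := integral_nonneg fun x => by
    rw [trPow, dif_pos (hW.2.1 x).isHermitian]
    exact Finset.sum_nonneg fun c _ => Real.rpow_nonneg ((hW.2.1 x).eigenvalues_nonneg c) _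
  refine le_trans ?_ (mul_le_mul_of_nonneg_right hFη.le hI0)
  rw [hF]
  rw [div_mul_eq_mul_div, le_div_iff₀ hden]
  linarith

/-- The upper bound relative to the semiclassical constant. -/
theorem below_upper_cl {ε : ℝ} (hε : 0 < ε) :
    ∃ δ : ℝ, 0 < δ ∧ ∀ g : ℝ, 1 - δ < g → g < 1 → ∀ (m N : ℕ)
      (W : ℝ → Matrix (Fin m) (Fin m) ℂ) (E : Fin N → ℝ) (ψ ψ' : Fin N → ℝ → Fin m → ℂ),
      IsPotentialFor g W → IsBoundStates W E ψ ψ' →
      ∑ n, |E n| ^ g ≤ (2 / Real.sqrt 3 + ε) * (Real.Gamma (g + 1) /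
        (2 * Real.sqrt Real.pi * Real.Gamma (g + 3 / 2))) * ∫ x, trPow (g + 1 / 2) (W x) := by
  set C : ℝ → ℝ := fun g => Real.Gamma (g + 1) / (2 * Real.sqrt Real.pi * Real.Gamma (g + 3 / 2))
    with hC
  have hC1 : C 1 = 2 / (3 * Real.pi) := by
    have g2 : Real.Gamma (1 + 1) = 1 := by norm_num [Real.Gamma_two]
    have g5 : Real.Gamma (1 + 3 / 2) = 3 / 4 * Real.sqrt Real.pi := by
      rw [show (1 : ℝ) + 3 / 2 = 3 / 2 + 1 by norm_num, Real.Gamma_add_one (by norm_num),
        show (3 / 2 : ℝ) = 1 / 2 + 1 by norm_num, Real.Gamma_add_one (by norm_num),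
        Real.Gamma_one_half_eq]
      ring
    simp only [hC, g2, g5]
    field_simp
    rw [Real.sq_sqrt Real.pi_pos.le]
    ring
  have hGc : ∀ x : ℝ, 0 < x → ContinuousAt Real.Gamma x := fun x hx =>
    (Real.differentiableAt_Gamma fun k => by
      have := (Nat.cast_nonneg k : (0 : ℝ) ≤ k)
      linarith).continuousAt
  have hCc : ContinuousAt C 1 := by
    refine ContinuousAt.div (ContinuousAt.comp (g := Real.Gamma) (f := fun g : ℝ => g + 1)
      (hGc _ (by norm_num)) (by fun_prop)) (continuousAt_const.mul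
      (ContinuousAt.comp (g := Real.Gamma) (f := fun g : ℝ => g + 3 / 2)
      (hGc _ (by norm_num)) (by fun_prop))) ?_
    have := Real.Gamma_pos_of_pos (by norm_num : (0 : ℝ) < 1 + 3 / 2)
    positivity
  have hlt : ltConst < (2 / Real.sqrt 3 + ε) * C 1 := by
    rw [hC1, ltConst, add_mul]
    have e : 2 / Real.sqrt 3 * (2 / (3 * Real.pi)) = 4 / (3 * Real.sqrt 3 * Real.pi) := by
      field_simp; ring
    rw [e]
    exact lt_add_of_pos_right _ (by positivity)
  set gap := (2 / Real.sqrt 3 + ε) * C 1 - ltConst with hgap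
  obtain ⟨δ, hδ0, hδ⟩ := below_upper (half_pos (sub_pos.mpr hlt))
  have hc2 : ContinuousAt (fun g => (2 / Real.sqrt 3 + ε) * C g) 1 := continuousAt_const.mul hCc
  obtain ⟨d, hd0, hd⟩ := Metric.eventually_nhds_iff.mp (hc2.eventually_const_le
    (show ltConst + gap / 2 < (2 / Real.sqrt 3 + ε) * C 1 by simp only [hgap]; linarith))
  refine ⟨min δ d, lt_min hδ0 hd0, fun g h1 h2 m N W E ψ ψ' hW hb => ?_⟩
  refine (hδ g (by linarith [min_le_left δ d]) h2 m N W E ψ ψ' hW hb).trans ?_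
  refine mul_le_mul_of_nonneg_right (hd ?_) (integral_nonneg fun x => ?_)
  · rw [Real.dist_eq, abs_lt]
    constructor <;> linarith [min_le_right δ d]
  · rw [trPow, dif_pos (hW.2.1 x).isHermitian]
    exact Finset.sum_nonneg fun c _ => Real.rpow_nonneg ((hW.2.1 x).eigenvalues_nonneg c) _

end

end Vale.Agent.P371.LT
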