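import Vale.Agent.P371.Below.Fn

/-! # Removing a high potential from a finite family

For an orthonormal family of dimension `d` and a potential `h ≥ 0` there is an orthonormal
subfamily, in the span, on which `h ≤ η (-d²/dx² + a)`, of dimension at least
`d - ∫ tr h / (η √a)`.
-/

namespace Vale.Agent.P371.LT

open MeasureTheory Filter Topology Matrix
open scoped ComplexOrder
open Vale.Agent.P371 (ymat dens OrthFam IsH1 frobSq frobSq_nonneg conjU dg qf)

noncomputable section

variable {m : ℕ} {ι κ : Type} [Fintype ι] [DecidableEq ι] [Fintype κ]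

/-- The quadratic form of a square matrix on the rows of `C`, summed over the rows. -/
def tq (M : Matrix ι ι ℂ) (C : Matrix κ ι ℂ) : ℝ := (C * M * Cᴴ).trace.re

/-- The matrix of a potential on the values of a family at one point. -/
def qmat (h : Matrix (Fin m) (Fin m) ℂ) (Y : Matrix ι (Fin m) ℂ) : Matrix ι ι ℂ := Y * hᵀ * Yᴴ

/-- Entrywise integral. -/
def mint (F : ℝ → Matrix ι ι ℂ) : Matrix ι ι ℂ := Matrix.of fun i j => ∫ x, F x i j

/-- The kinetic matrix of a family. -/
def kin (Φ' : ι → Fin m → ℝ → ℂ) : Matrix ι ι ℂ := mint fun x => ymat Φ' x * (ymat Φ' x)ᴴ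

/-- The potential matrix of a family. -/
def pmat (h : ℝ → Matrix (Fin m) (Fin m) ℂ) (Φ : ι → Fin m → ℝ → ℂ) : Matrix ι ι ℂ :=
  mint fun x => qmat (h x) (ymat Φ x)

omit [DecidableEq ι] in
theorem potDens_eq_trace (h : Matrix (Fin m) (Fin m) ℂ) (Z : Matrix ι (Fin m) ℂ) :
    potDens h Z = (Z * hᵀ * Zᴴ).trace.re := by
  rw [potDens]
  congr 1
  simp only [Matrix.trace, Matrix.diag, Matrix.mul_apply, conjTranspose_apply, transpose_apply,
    Finset.sum_mul]
  exact Finset.sum_congr rfl fun n _ => Finset.sum_congr rfl fun a _ =>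
    Finset.sum_congr rfl fun b _ => by ring

omit [DecidableEq ι] in
theorem potDens_mul (h : Matrix (Fin m) (Fin m) ℂ) (C : Matrix κ ι ℂ) (Y : Matrix ι (Fin m) ℂ) :
    potDens h (C * Y) = tq (qmat h Y) C := by
  rw [potDens_eq_trace, tq, qmat, conjTranspose_mul]
  simp only [Matrix.mul_assoc]

omit [DecidableEq ι] in
theorem frob_mul (C : Matrix κ ι ℂ) (Y : Matrix ι (Fin m) ℂ) :
    frobSq (C * Y) = tq (Y * Yᴴ) C := by
  rw [Vale.Agent.P371.frobSq_eq_trace, tq, conjTranspose_mul]
  simp only [Matrix.mul_assoc]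

theorem tq_one (C : Matrix κ ι ℂ) : tq 1 C = frobSq C := by
  rw [tq, Matrix.mul_one, Vale.Agent.P371.frobSq_eq_trace]

omit [DecidableEq ι] in
theorem tq_sum (M : Matrix ι ι ℂ) (C : Matrix κ ι ℂ) :
    tq M C = ∑ k, ∑ i, ∑ j, (C k i * M i j * star (C k j)).re := by
  simp only [tq, Matrix.trace, Matrix.diag, Matrix.mul_apply, conjTranspose_apply, Complex.re_sum,
    Finset.sum_mul]
  exact Finset.sum_congr rfl fun k _ => Finset.sum_comm

omit [DecidableEq ι] in
theorem tq_lin (M N : Matrix ι ι ℂ) (u v : ℝ) (C : Matrix κ ι ℂ) :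
    tq ((u : ℂ) • M + (v : ℂ) • N) C = u * tq M C + v * tq N C := by
  simp only [tq, Matrix.mul_add, Matrix.add_mul, Matrix.mul_smul, Matrix.smul_mul,
    Matrix.trace_add, Matrix.trace_smul, Complex.add_re, smul_eq_mul, Complex.re_ofReal_mul]

omit [DecidableEq ι] in
theorem tq_integral {F : ℝ → Matrix ι ι ℂ} (hF : ∀ i j, Integrable fun x => F x i j)
    (C : Matrix κ ι ℂ) : Integrable (fun x => tq (F x) C) ∧ ∫ x, tq (F x) C = tq (mint F) C := by
  simp only [tq_sum]
  have hi : ∀ k i j, Integrable fun x => C k i * F x i j * star (C k j) := fun k i j =>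
    ((hF i j).const_mul _).mul_const _
  have hr : ∀ k i j, Integrable fun x => (C k i * F x i j * star (C k j)).re := fun k i j =>
    Complex.reCLM.integrable_comp (hi k i j)
  refine ⟨integrable_finsetSum _ fun k _ => integrable_finsetSum _ fun i _ =>
    integrable_finsetSum _ fun j _ => hr k i j, ?_⟩
  rw [integral_finsetSum _ fun k _ => integrable_finsetSum _ fun i _ =>
    integrable_finsetSum _ fun j _ => hr k i j]
  refine Finset.sum_congr rfl fun k _ => ?_
  rw [integral_finsetSum _ fun i _ => integrable_finsetSum _ fun j _ => hr k i j]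
  refine Finset.sum_congr rfl fun i _ => ?_
  rw [integral_finsetSum _ fun j _ => hr k i j]
  refine Finset.sum_congr rfl fun j _ => ?_
  have e := Complex.reCLM.integral_comp_comm (hi k i j)
  simp only [Complex.reCLM_apply] at e
  rw [e, mint, Matrix.of_apply, integral_mul_const, integral_const_mul]

theorem kin_integrable {Φ Φ' : ι → Fin m → ℝ → ℂ} (hF : OrthFam Φ Φ') (i j : ι) :
    Integrable fun x => (ymat Φ' x * (ymat Φ' x)ᴴ) i j := by
  refine Integrable.mono' hF.frob_integrable.2 ?_ (Eventually.of_forall fun x =>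
    Vale.Agent.P371.gram_entry_le (ymat Φ' x) i j)
  simp only [Matrix.mul_apply, conjTranspose_apply]
  exact Finset.aestronglyMeasurable_fun_sum _ fun s _ =>
    (hF.h1 i s).2.1.1.mul (continuous_star.comp_aestronglyMeasurable (hF.h1 j s).2.1.1)

theorem orth_mint {Φ Φ' : ι → Fin m → ℝ → ℂ} (hF : OrthFam Φ Φ') :
    mint (fun x => ymat Φ x * (ymat Φ x)ᴴ) = 1 := by
  ext i j
  rw [mint, Matrix.of_apply, Matrix.one_apply]
  exact hF.orth i j

theorem frob_integral {Φ Φ' : ι → Fin m → ℝ → ℂ} (hF : OrthFam Φ Φ') (C : Matrix κ ι ℂ) :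
    Integrable (fun x => frobSq (C * ymat Φ x)) ∧ Integrable (fun x => frobSq (C * ymat Φ' x)) ∧
      (∫ x, frobSq (C * ymat Φ x)) = frobSq C ∧
      (∫ x, frobSq (C * ymat Φ' x)) = tq (kin Φ') C := by
  simp only [frob_mul]
  obtain ⟨i1, e1⟩ := tq_integral (F := fun x => ymat Φ x * (ymat Φ x)ᴴ)
    (fun i j => hF.dens_integrable i j) C
  obtain ⟨i2, e2⟩ := tq_integral (F := fun x => ymat Φ' x * (ymat Φ' x)ᴴ) (kin_integrable hF) C
  exact ⟨i1, i2, by rw [e1, orth_mint hF, tq_one], e2⟩

omit [DecidableEq ι] in
theorem norm_qmat_le (h : Matrix (Fin m) (Fin m) ℂ) (Y : Matrix ι (Fin m) ℂ) (i j : ι) :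
    ‖qmat h Y i j‖ ≤ frobSq Y * ∑ a, ∑ b, ‖h a b‖ := by
  have hY : ∀ n a, ‖Y n a‖ ^ 2 ≤ frobSq Y := fun n a => by
    rw [← Complex.normSq_eq_norm_sq]
    exact (Finset.single_le_sum (f := fun a => Complex.normSq (Y n a))
      (fun b _ => Complex.normSq_nonneg _) (Finset.mem_univ a)).trans
      (Finset.single_le_sum (f := fun n => ∑ a, Complex.normSq (Y n a))
        (fun q _ => Finset.sum_nonneg fun b _ => Complex.normSq_nonneg _) (Finset.mem_univ n))
  simp only [qmat, Matrix.mul_apply, transpose_apply, conjTranspose_apply, Finset.sum_mul,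
    Finset.mul_sum]
  refine (norm_sum_le _ _).trans (Finset.sum_le_sum fun a _ => (norm_sum_le _ _).trans
    (Finset.sum_le_sum fun b _ => ?_))
  rw [norm_mul, norm_mul, norm_star]
  calc ‖Y i b‖ * ‖h a b‖ * ‖Y j a‖ = ‖Y i b‖ * ‖Y j a‖ * ‖h a b‖ := by ring
    _ ≤ frobSq Y * ‖h a b‖ := by
      refine mul_le_mul_of_nonneg_right ?_ (norm_nonneg _)
      nlinarith [hY i b, hY j a, sq_nonneg (‖Y i b‖ - ‖Y j a‖)]

/-- The potential matrix computes the potential energy of every subfamily. -/
theorem pmat_integral {Φ Φ' : ι → Fin m → ℝ → ℂ} (hF : OrthFam Φ Φ')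
    {h : ℝ → Matrix (Fin m) (Fin m) ℂ} (hm : ∀ a b, Measurable fun x => h x a b)
    (hdom : Integrable fun x => frobSq (ymat Φ x) * ∑ a, ∑ b, ‖h x a b‖) (C : Matrix κ ι ℂ) :
    Integrable (fun x => potDens (h x) (C * ymat Φ x)) ∧
      ∫ x, potDens (h x) (C * ymat Φ x) = tq (pmat h Φ) C := by
  simp only [potDens_mul]
  refine tq_integral (fun i j => Integrable.mono' hdom ?_
    (Eventually.of_forall fun x => norm_qmat_le _ _ i j)) C
  simp only [qmat, Matrix.mul_apply, transpose_apply, conjTranspose_apply]
  exact (Finset.measurable_fun_sum _ fun a _ => (Finset.measurable_fun_sum _ fun b _ =>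
    ((hF.h1 i b).continuous.measurable).mul (hm a b)).mul
      (continuous_star.comp (hF.h1 j a).continuous).measurable).aestronglyMeasurable

/-- The maximum of `|f|²` by the norms of `f` and `f'`. -/
theorem sup_bound {f f' : ℝ → ℂ} (h : IsH1 f f') {s : ℝ} (hs : 0 < s) (x : ℝ) :
    Complex.normSq (f x)
      ≤ s * (∫ t, Complex.normSq (f t)) + (∫ t, Complex.normSq (f' t)) / s := by
  refine le_of_forall_pos_le_add fun e he => ?_
  obtain ⟨y, -, hy⟩ := Vale.Agent.P371.exists_small h.normSq_integrable.1 he 0
  have hF : AbsolutelyContinuousOnInterval (fun t => Complex.normSq (f t)) y x := by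
    simp only [Complex.normSq_apply]
    exact ((h.acc y x).1.mul (h.acc y x).1).add ((h.acc y x).2.mul (h.acc y x).2)
  have hI := hF.integral_deriv_eq_sub
  have hb : ∀ᵐ t, ‖deriv (fun t => Complex.normSq (f t)) t‖
      ≤ s * Complex.normSq (f t) + Complex.normSq (f' t) / s := by
    filter_upwards [h.ae_deriv] with t ht
    have hre := Complex.reCLM.hasFDerivAt.comp_hasDerivAt t ht
    have him := Complex.imCLM.hasFDerivAt.comp_hasDerivAt t ht
    have hd : HasDerivAt (fun t => Complex.normSq (f t))
        ((f' t).re * (f t).re + (f t).re * (f' t).re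
          + ((f' t).im * (f t).im + (f t).im * (f' t).im)) t := by
      simp only [Complex.normSq_apply]
      exact (hre.mul hre).add (him.mul him)
    rw [hd.deriv, Real.norm_eq_abs, Complex.normSq_apply, Complex.normSq_apply,
      show ∀ u v : ℝ, s * u + v / s = (s ^ 2 * u + v) / s from fun u v => by field_simp,
      le_div_iff₀ hs]
    rcases abs_cases ((f' t).re * (f t).re + (f t).re * (f' t).re
        + ((f' t).im * (f t).im + (f t).im * (f' t).im)) with hc | hc <;> rw [hc.1] <;>
      nlinarith [sq_nonneg (s * (f t).re - (f' t).re), sq_nonneg (s * (f t).re + (f' t).re),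
        sq_nonneg (s * (f t).im - (f' t).im), sq_nonneg (s * (f t).im + (f' t).im)]
  have hint : Integrable fun t => s * Complex.normSq (f t) + Complex.normSq (f' t) / s :=
    (h.normSq_integrable.1.const_mul s).add (h.normSq_integrable.2.div_const s)
  have h2 : ‖∫ t in y..x, deriv (fun t => Complex.normSq (f t)) t‖
      ≤ s * (∫ t, Complex.normSq (f t)) + (∫ t, Complex.normSq (f' t)) / s := by
    rw [intervalIntegral.norm_intervalIntegral_eq]
    refine (norm_integral_le_integral_norm _).trans ?_
    rw [← integral_const_mul, ← integral_div,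
      ← integral_add (h.normSq_integrable.1.const_mul s) (h.normSq_integrable.2.div_const s)]
    refine le_trans (integral_mono_of_nonneg (Eventually.of_forall fun t => norm_nonneg _)
      hint.integrableOn (ae_restrict_of_ae hb)) ?_
    exact setIntegral_le_integral hint (Eventually.of_forall fun t => add_nonneg
      (mul_nonneg hs.le (Complex.normSq_nonneg _)) (div_nonneg (Complex.normSq_nonneg _) hs.le))
  rw [hI, Real.norm_eq_abs, abs_le] at h2
  have := Complex.normSq_nonneg (f (-y))
  linarith [h2.1, h2.2]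

omit [DecidableEq ι] in
theorem h1_comb {f f' : ι → ℝ → ℂ} (hf : ∀ i, IsH1 (f i) (f' i)) (c : ι → ℂ) :
    IsH1 (fun x => ∑ i, c i * f i x) (fun x => ∑ i, c i * f' i x) := by
  refine ⟨memLp_finsetSum _ fun i _ => (hf i).1.const_mul (c i),
    memLp_finsetSum _ fun i _ => (hf i).2.1.const_mul (c i), fun a b => ?_⟩
  rw [intervalIntegral.integral_finsetSum fun i _ => ((hf i).intInt a b).const_mul (c i),
    ← Finset.sum_sub_distrib]
  refine Finset.sum_congr rfl fun i _ => ?_
  rw [intervalIntegral.integral_const_mul, ← (hf i).2.2 a b]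
  ring

/-- The sup bound for all subfamilies. -/
theorem frob_sup {Φ Φ' : ι → Fin m → ℝ → ℂ} (hF : OrthFam Φ Φ') (C : Matrix κ ι ℂ) {s : ℝ}
    (hs : 0 < s) (x : ℝ) :
    frobSq (C * ymat Φ x) ≤ s * frobSq C + tq (kin Φ') C / s := by
  obtain ⟨i1, i2, e1, e2⟩ := frob_integral hF C
  rw [← e1, ← e2]
  have hc : ∀ k a, IsH1 (fun x => ∑ i, C k i * Φ i a x) (fun x => ∑ i, C k i * Φ' i a x) :=
    fun k a => h1_comb (fun i => hF.h1 i a) _
  have ef : ∀ (Ψ : ι → Fin m → ℝ → ℂ) (y : ℝ), frobSq (C * ymat Ψ y)
      = ∑ k, ∑ a, Complex.normSq (∑ i, C k i * Ψ i a y) := fun Ψ y => rfl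
  simp only [ef]
  rw [integral_finsetSum _ fun k _ =>
      integrable_finsetSum _ fun a _ => (hc k a).normSq_integrable.1,
    integral_finsetSum _ fun k _ =>
      integrable_finsetSum _ fun a _ => (hc k a).normSq_integrable.2,
    Finset.mul_sum, Finset.sum_div, ← Finset.sum_add_distrib]
  refine Finset.sum_le_sum fun k _ => ?_
  rw [integral_finsetSum _ fun a _ => (hc k a).normSq_integrable.1,
    integral_finsetSum _ fun a _ => (hc k a).normSq_integrable.2,
    Finset.mul_sum, Finset.sum_div, ← Finset.sum_add_distrib]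
  exact Finset.sum_le_sum fun a _ => sup_bound (hc k a) hs x

omit [DecidableEq ι] in
theorem tq_mul {μ : Type} [Fintype μ] (M : Matrix ι ι ℂ) (L : Matrix μ κ ℂ) (C : Matrix κ ι ℂ) :
    tq M (L * C) = tq (C * M * Cᴴ) L := by
  simp only [tq, conjTranspose_mul, Matrix.mul_assoc]

theorem mint_gram_herm {F : ℝ → Matrix ι ι ℂ} (h : ∀ x, (F x).IsHermitian) :
    (mint F).IsHermitian := by
  ext i j
  simp only [conjTranspose_apply, mint, Matrix.of_apply, Complex.star_def, ← integral_conj]
  refine integral_congr_ae (Eventually.of_forall fun x => ?_)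
  show star (F x j i) = F x i j
  rw [← conjTranspose_apply, (h x).eq]

/-- **The count.**  Few directions of the span feel a potential of small trace. -/
theorem subfamily {Φ Φ' : ι → Fin m → ℝ → ℂ} (hF : OrthFam Φ Φ')
    {h : ℝ → Matrix (Fin m) (Fin m) ℂ} (hm : ∀ a b, Measurable fun x => h x a b)
    (hp : ∀ x, (h x).PosSemidef)
    (hdom : Integrable fun x => frobSq (ymat Φ x) * ∑ a, ∑ b, ‖h x a b‖)
    (htr : Integrable fun x => (h x).trace.re) {a η : ℝ} (ha : 0 < a) (hη : 0 < η) :
    ∃ (k : ℕ) (C : Matrix (Fin k) ι ℂ), C * Cᴴ = 1 ∧ (∀ n, ∑ i, Complex.normSq (C i n) ≤ 1) ∧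
      tq (pmat h Φ) C ≤ η * tq (kin Φ') C + η * a * k ∧
      ((Fintype.card ι : ℝ) - k) * (η * Real.sqrt a) ≤ ∫ x, (h x).trace.re := by
  classical
  set H := pmat h Φ
  set A : Matrix ι ι ℂ := (η : ℂ) • kin Φ' + ((η * a : ℝ) : ℂ) • (1 : Matrix ι ι ℂ) with hAdef
  have hK : (kin Φ').IsHermitian :=
    mint_gram_herm fun x => Matrix.isHermitian_mul_conjTranspose_self _
  have hH : H.IsHermitian := mint_gram_herm fun x => by
    rw [IsHermitian, qmat, conjTranspose_mul, conjTranspose_mul, conjTranspose_conjTranspose,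
      (hp x).isHermitian.transpose.eq, Matrix.mul_assoc]
  have hA : A.IsHermitian := by
    rw [IsHermitian, hAdef, conjTranspose_add, conjTranspose_smul, conjTranspose_smul,
      conjTranspose_one, hK.eq]
    simp
  obtain ⟨U, μ, hU, hM⟩ := Vale.Agent.P371.diagonalize (hH.sub hA)
  have hU' : U * star U = 1 := mul_eq_one_comm.mp hU
  -- the part of the span where the form is at most zero, and its complement
  have hsub : ∀ {ν : Type} [Fintype ν] [DecidableEq ν] (f : ν → ι), Function.Injective f →
      ((star U).submatrix f id) * ((star U).submatrix f id)ᴴ = 1 ∧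
      (star U).submatrix f id * (H - A) * ((star U).submatrix f id)ᴴ
        = dg fun q => μ (f q) := by
    intro ν _ _ f hf
    have h1 : ((star U).submatrix f id)ᴴ = U.submatrix id f := by
      rw [conjTranspose_submatrix, star_eq_conjTranspose, conjTranspose_conjTranspose]
    refine ⟨?_, ?_⟩
    · rw [h1, ← Matrix.submatrix_mul (star U) U f id f Function.bijective_id, hU,
        Matrix.submatrix_one f hf]
    · have e : star U * (H - A) * U = dg μ := by
        rw [hM, conjU]
        simp only [← Matrix.mul_assoc, hU, Matrix.one_mul]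
        rw [Matrix.mul_assoc, hU, Matrix.mul_one]
      rw [h1]
      have : (star U).submatrix f id * (H - A) = (star U * (H - A)).submatrix f id := by
        rw [Matrix.submatrix_mul (star U) (H - A) f id id Function.bijective_id, submatrix_id_id]
      rw [this, ← Matrix.submatrix_mul (star U * (H - A)) U f id f Function.bijective_id, e, dg, dg,
        Matrix.submatrix_diagonal _ f hf]
      rfl
  set P := {q : ι // μ q ≤ 0}
  set R := {q : ι // ¬ μ q ≤ 0}
  set e := Fintype.equivFin P
  have hfi : Function.Injective fun q : Fin (Fintype.card P) => (e.symm q : ι) :=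
    Subtype.val_injective.comp e.symm.injective
  set C := (star U).submatrix (fun q : Fin (Fintype.card P) => (e.symm q : ι)) id
  obtain ⟨hC1, hC2⟩ := hsub (fun q : Fin (Fintype.card P) => (e.symm q : ι)) hfi
  have hlin : ∀ {ν : Type} [Fintype ν] (D : Matrix ν ι ℂ), tq (H - A) D
      = tq H D - (η * tq (kin Φ') D + η * a * frobSq D) := by
    intro ν _ D
    have e1 : tq A D = η * tq (kin Φ') D + η * a * tq 1 D := tq_lin _ _ _ _ _
    rw [tq_one] at e1
    rw [← e1, tq, tq, tq, Matrix.mul_sub, Matrix.sub_mul, Matrix.trace_sub, Complex.sub_re]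
  refine ⟨Fintype.card P, C, hC1, fun n => ?_, ?_, ?_⟩
  · have hrow : ∑ q, Complex.normSq (star U q n) = 1 := by
      have := congrArg (fun M : Matrix ι ι ℂ => (M n n).re) hU'
      simp only [Matrix.mul_apply, Complex.re_sum, Matrix.one_apply_eq, Complex.one_re] at this
      rw [← this]
      refine Finset.sum_congr rfl fun q _ => ?_
      simp only [star_apply, Complex.star_def, Complex.normSq_conj, Complex.mul_conj,
        Complex.ofReal_re]
    rw [← hrow]
    have e2 : ∑ i, Complex.normSq (C i n) = ∑ q ∈ Finset.univ.filter fun q => μ q ≤ 0,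
        Complex.normSq (star U q n) := by
      rw [Finset.sum_subtype (p := fun q => μ q ≤ 0) _ (by simp)]
      exact e.symm.sum_comp fun q : P => Complex.normSq (star U q n)
    rw [e2]
    exact Finset.sum_le_sum_of_subset_of_nonneg (Finset.filter_subset _ _) fun q _ _ =>
      Complex.normSq_nonneg _
  · have h1 := hlin C
    have h2 : tq (H - A) C ≤ 0 := by
      rw [tq, hC2, dg, Matrix.trace_diagonal, Complex.re_sum]
      exact Finset.sum_nonpos fun q _ => by rw [Complex.ofReal_re]; exact (e.symm q).2
    have h3 : frobSq C = Fintype.card P := by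
      rw [Vale.Agent.P371.frobSq_eq_trace, hC1, Matrix.trace_one, Fintype.card_fin]; simp
    rw [h3] at h1
    linarith
  · -- an orthonormal basis for `A` on the positive part
    set Cp := (star U).submatrix (Subtype.val : R → ι) id
    obtain ⟨hD1, hD2⟩ := hsub (Subtype.val : R → ι) Subtype.val_injective
    obtain ⟨V, α, hV, hVA⟩ := Vale.Agent.P371.diagonalize (isHermitian_mul_mul_conjTranspose Cp hA)
    have hVA' : star V * (Cp * A * Cpᴴ) * V = dg α := by
      rw [hVA, conjU]
      simp only [← Matrix.mul_assoc, hV, Matrix.one_mul]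
      rw [Matrix.mul_assoc, hV, Matrix.mul_one]
    have hαpos : ∀ q, 0 < α q := by
      intro q
      set T : Matrix Unit ι ℂ := (star V).submatrix (fun _ => q) id * Cp
      have hvv : (star V).submatrix (fun _ : Unit => q) id
          * ((star V).submatrix (fun _ : Unit => q) id)ᴴ = 1 := by
        rw [conjTranspose_submatrix, star_eq_conjTranspose, conjTranspose_conjTranspose,
          ← Matrix.submatrix_mul _ _ _ id _ Function.bijective_id, ← star_eq_conjTranspose, hV]
        exact Matrix.submatrix_one _ fun _ _ _ => rfl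
      have hT : frobSq T = 1 := by
        rw [Vale.Agent.P371.frobSq_eq_trace, conjTranspose_mul, Matrix.mul_assoc,
          ← Matrix.mul_assoc Cp, hD1, Matrix.one_mul, hvv]
        simp
      have hTA : tq A T = α q := by
        have hrv : ((star V).submatrix (fun _ : Unit => q) id)ᴴ
            = V.submatrix id fun _ : Unit => q := by
          rw [conjTranspose_submatrix, star_eq_conjTranspose, conjTranspose_conjTranspose]
        rw [tq_mul, tq, hrv, Matrix.trace, Fintype.sum_unique]
        have e3 : ((star V).submatrix (fun _ : Unit => q) id * (Cp * A * Cpᴴ)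
            * V.submatrix id fun _ : Unit => q) default default
            = (star V * (Cp * A * Cpᴴ) * V) q q := by
          simp only [Matrix.mul_apply, submatrix_apply, id]
        rw [Matrix.diag, e3, hVA', dg, diagonal_apply_eq,
          Complex.ofReal_re]
      have e1 : tq A T = η * tq (kin Φ') T + η * a * tq 1 T := tq_lin _ _ _ _ _
      rw [hTA, tq_one, hT] at e1
      obtain ⟨-, -, -, e4⟩ := frob_integral hF T
      have : 0 ≤ tq (kin Φ') T := e4 ▸ integral_nonneg fun x => frobSq_nonneg _
      rw [e1]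
      positivity
    set L := dg (fun q => (Real.sqrt (α q))⁻¹) * star V
    set D := L * Cp
    have hDA : D * A * Dᴴ = 1 := by
      have : D * A * Dᴴ = L * (Cp * A * Cpᴴ) * Lᴴ := by
        simp only [D, conjTranspose_mul, Matrix.mul_assoc]
      rw [this, show L * (Cp * A * Cpᴴ) * Lᴴ = dg (fun q => (Real.sqrt (α q))⁻¹)
        * (star V * (Cp * A * Cpᴴ) * V) * (dg fun q => (Real.sqrt (α q))⁻¹) by
          simp only [L, conjTranspose_mul, Matrix.mul_assoc, dg, diagonal_conjTranspose,
            star_eq_conjTranspose, conjTranspose_conjTranspose]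
          simp [Pi.star_def], hVA']
      simp only [dg, diagonal_mul_diagonal]
      rw [← Matrix.diagonal_one]
      congr 1
      funext q
      have h0 := hαpos q
      rw [← Complex.ofReal_mul, ← Complex.ofReal_mul, ← Complex.ofReal_one]
      congr 1
      field_simp
      rw [Real.sq_sqrt h0.le]
    have hlow : (Fintype.card R : ℝ) ≤ tq H D := by
      have h1 : 0 ≤ tq (H - A) D := by
        rw [tq_mul, hD2]
        exact (Complex.le_def.mp ((Matrix.PosSemidef.diagonal fun q : R => by
          simp only [Pi.zero_apply, Complex.zero_le_real]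
          exact (not_le.mp q.2).le).mul_mul_conjTranspose_same L).trace_nonneg).1
      have h2 : tq A D = Fintype.card R := by rw [tq, hDA, Matrix.trace_one, Complex.natCast_re]
      have h3 : tq A D = η * tq (kin Φ') D + η * a * tq 1 D := tq_lin _ _ _ _ _
      rw [tq_one] at h3
      linarith [hlin D]
    obtain ⟨iD, eD⟩ := pmat_integral hF hm hdom D
    have hs : 0 < Real.sqrt a := Real.sqrt_pos.mpr ha
    have hpt : ∀ x, potDens (h x) (D * ymat Φ x) * (η * Real.sqrt a) ≤ (h x).trace.re := by
      intro x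
      have hx := (hp x).isHermitian
      rw [potDens_eig hx, Finset.sum_mul]
      have htr' : (h x).trace.re = ∑ c, hx.eigenvalues c := by
        rw [← fn_trace (fun l => l) hx, fn_id hx]
      rw [htr']
      refine Finset.sum_le_sum fun c _ => ?_
      rw [mul_assoc]
      refine mul_le_of_le_one_right ((hp x).eigenvalues_nonneg c) ?_
      set V' : Matrix (Fin m) (Fin m) ℂ := (hx.eigenvectorUnitary : Matrix (Fin m) (Fin m) ℂ)
      set Z := D * ymat Φ x with hZ
      set w : R → ℂ := fun q => ∑ b, star (V' b c) * Z q b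
      set S := rot V' Z c with hSdef
      set Rw : Matrix Unit R ℂ := Matrix.of fun _ q => star (w q)
      have hS : frobSq Rw = S := by
        simp only [frobSq, Rw, Matrix.of_apply, Complex.star_def, Complex.normSq_conj,
          Finset.univ_unique, Finset.sum_singleton]
        rfl
      have hcs : S ^ 2 ≤ frobSq (Rw * Z) := by
        have e5 : (S : ℂ) = ∑ b, star (V' b c) * (Rw * Z) () b := by
          simp only [hSdef, rot, Complex.ofReal_sum, Matrix.mul_apply, Rw, Matrix.of_apply,
            Finset.mul_sum]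
          rw [Finset.sum_comm]
          refine Finset.sum_congr rfl fun q _ => ?_
          rw [Complex.normSq_eq_conj_mul_self, ← Complex.star_def, Finset.mul_sum]
          exact Finset.sum_congr rfl fun b _ => by simp only [w]; ring
        have h6 : ∑ b, Complex.normSq (V' b c) = 1 := by
          have := congrArg (fun M : Matrix (Fin m) (Fin m) ℂ => (M c c).re)
            (Unitary.star_mul_self_of_mem hx.eigenvectorUnitary.2)
          simpa [V', Matrix.mul_apply, star_apply, Complex.re_sum, Complex.normSq_apply] using this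
        have h7 : |S| ≤ ∑ b, ‖V' b c‖ * ‖(Rw * Z) () b‖ := by
          rw [← Real.norm_eq_abs, ← Complex.norm_real, e5]
          exact (norm_sum_le _ _).trans (le_of_eq (by simp only [norm_mul, norm_star]))
        calc S ^ 2 = |S| ^ 2 := (sq_abs S).symm
          _ ≤ (∑ b, ‖V' b c‖ * ‖(Rw * Z) () b‖) ^ 2 := by gcongr
          _ ≤ (∑ b, ‖V' b c‖ ^ 2) * ∑ b, ‖(Rw * Z) () b‖ ^ 2 :=
            Finset.sum_mul_sq_le_sq_mul_sq _ _ _
          _ = frobSq (Rw * Z) := by
            simp only [← Complex.normSq_eq_norm_sq, h6, one_mul]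
            simp [frobSq]
      have hb : frobSq (Rw * Z) * (η * Real.sqrt a) ≤ S := by
        have h1 := frob_sup hF (Rw * D) hs x
        rw [Matrix.mul_assoc, ← hZ] at h1
        have h2 : tq A (Rw * D) = S := by rw [tq_mul, hDA, tq_one, hS]
        have h3 : tq A (Rw * D) = η * tq (kin Φ') (Rw * D) + η * a * tq 1 (Rw * D) :=
          tq_lin _ _ _ _ _
        rw [tq_one, h2] at h3
        have h4 := mul_le_mul_of_nonneg_right h1 (mul_pos hη hs).le
        have h5 : (Real.sqrt a * frobSq (Rw * D) + tq (kin Φ') (Rw * D) / Real.sqrt a)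
            * (η * Real.sqrt a)
            = η * (Real.sqrt a * Real.sqrt a) * frobSq (Rw * D) + η * tq (kin Φ') (Rw * D) := by
          field_simp
        rw [h5, Real.mul_self_sqrt ha.le] at h4
        linarith
      have hS0 : 0 ≤ S := rot_nonneg _ _ _
      have h9 := mul_le_mul_of_nonneg_right hcs (mul_pos hη hs).le
      rcases hS0.eq_or_lt with h0 | h0
      · rw [← h0, zero_mul]; exact zero_le_one
      · exact le_of_mul_le_mul_left (by nlinarith) h0
    have hI := integral_mono (iD.mul_const _) htr hpt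
    rw [integral_mul_const, eD] at hI
    have hcard : (Fintype.card ι : ℝ) - Fintype.card P = Fintype.card R := by
      have h1 := Fintype.card_subtype_compl fun q => μ q ≤ 0
      have h2 := Fintype.card_subtype_le fun q => μ q ≤ 0
      rw [show Fintype.card R = Fintype.card ι - Fintype.card P from h1, Nat.cast_sub h2]
    rw [hcard]
    exact le_trans (mul_le_mul_of_nonneg_right hlow (mul_pos hη hs).le) hI

end

end Vale.Agent.P371.LT
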