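import Vale.Agent.P371.Lower
import Vale.Agent.P371.Lift
import Mathlib.Analysis.SpecialFunctions.Pow.Continuity
import Mathlib.MeasureTheory.Integral.DominatedConvergence

/-! # The soliton as a lower bound near `γ = 1` -/

namespace Vale.Agent.P371.LT

open MeasureTheory Filter Topology Matrix
open scoped ComplexOrder

noncomputable section

/-- The soliton has a normalised bound state of energy `-1/4`. -/
theorem soliton_bound (k : ℕ) :
    ∃ ψ ψ' : Fin 1 → ℝ → Fin (k + 1) → ℂ, IsBoundStates (solW k) (fun _ => -1 / 4) ψ ψ' := by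
  set ψ : Fin 1 → ℝ → Fin (k + 1) → ℂ := fun _ x a => if a = 0 then (bst x : ℂ) else 0 with hψ
  set ψ' : Fin 1 → ℝ → Fin (k + 1) → ℂ := fun _ x a => if a = 0 then (bst' x : ℂ) else 0 with hψ'
  refine ⟨ψ, ψ', fun n a => ?_, fun n q => ?_, fun n => ⟨by norm_num, fun φ φ' hφ => ?_⟩⟩
  · by_cases ha : a = 0
    · simp only [hψ, hψ', ha, if_true]; exact bst_h1
    · simp only [hψ, hψ', ha, if_false]
      exact ⟨MemLp.zero, MemLp.zero, fun u v => by simp⟩
  · rw [if_pos (Subsingleton.elim n q), inner2]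
    have e : ∀ x, ∑ a, star (ψ n x a) * ψ q x a = ((sech x / Real.pi : ℝ) : ℂ) := by
      intro x
      rw [Finset.sum_eq_single 0]
      · simp only [hψ, if_true]
        rw [Complex.star_def, Complex.conj_ofReal, ← Complex.ofReal_mul, ← sq, bst_sq]
      · intro a _ ha; simp [hψ, ha]
      · simp
    simp only [e]
    rw [integral_complex_ofReal, integral_div, integral_sech, div_self Real.pi_ne_zero,
      Complex.ofReal_one]
  · have hz := hφ 0
    obtain ⟨-, -, h3⟩ := bst_weak (f := fun x => φ x 0) (f' := fun x => φ' x 0) hz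
    rw [form, inner2, inner2]
    have a1 : ∀ x, ∑ a, star (φ' x a) * ψ' n x a = star (φ' x 0) * (bst' x : ℂ) := by
      intro x
      rw [Finset.sum_eq_single 0 (fun a _ ha => by simp [hψ', ha]) (by simp)]
      simp [hψ']
    have a2 : ∀ x, ∑ a, ∑ b, star (φ x a) * solW k x a b * ψ n x b
        = star (φ x 0) * ((3 / 4 * sech x ^ 2 : ℝ) : ℂ) * (bst x : ℂ) := by
      intro x
      rw [Finset.sum_eq_single 0, Finset.sum_eq_single 0]
      · simp [hψ, solW]
      · intro b _ hb; simp [hψ, hb]
      · simp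
      · intro a _ ha
        refine Finset.sum_eq_zero fun b _ => ?_
        by_cases hb : b = 0
        · subst hb; simp [solW, ha]
        · simp [hψ, hb]
      · simp
    have a3 : ∀ x, ∑ a, star (φ x a) * ψ n x a = star (φ x 0) * (bst x : ℂ) := by
      intro x
      rw [Finset.sum_eq_single 0 (fun a _ ha => by simp [hψ, ha]) (by simp)]
      simp [hψ]
    simp only [a1, a2, a3]
    exact h3

theorem solW_trPow' (k : ℕ) {p : ℝ} (hp : p ≠ 0) (x : ℝ) :
    trPow p (solW k x) = (3 / 4 * sech x ^ 2) ^ p := by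
  rw [solW, trPow_diagonal, Finset.sum_eq_single 0]
  · rw [if_pos rfl]
  · intro a _ ha
    rw [if_neg ha, Real.zero_rpow hp]
  · simp

theorem sol_le {p : ℝ} (hp : 1 ≤ p) (x : ℝ) : (3 / 4 * sech x ^ 2) ^ p ≤ sech x := by
  have h0 := sech_pos x
  have h1 := sech_le_one x
  calc (3 / 4 * sech x ^ 2) ^ p ≤ (3 / 4 * sech x ^ 2) ^ (1 : ℝ) :=
        Real.rpow_le_rpow_of_exponent_ge (by positivity) (by nlinarith) hp
    _ ≤ sech x := by rw [Real.rpow_one]; nlinarith

theorem sol_integrable {p : ℝ} (hp : 1 ≤ p) :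
    Integrable fun x => (3 / 4 * sech x ^ 2) ^ p := by
  refine Integrable.mono' sech_integrable ((continuous_const.mul (sech_continuous.pow 2)).rpow_const
    fun x => Or.inr (by linarith)).aestronglyMeasurable (Eventually.of_forall fun x => ?_)
  rw [Real.norm_eq_abs, abs_of_nonneg (Real.rpow_nonneg (by positivity) _)]
  exact sol_le hp x

/-- The soliton shows that the constant is at least `4/(3√3π) - ε` near `γ = 1`. -/
theorem below_lower {ε : ℝ} (hε : 0 < ε) :
    ∃ δ : ℝ, 0 < δ ∧ ∀ g : ℝ, 1 - δ < g → g < 1 → ∀ m : ℕ, 1 ≤ m →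
      ∃ (W : ℝ → Matrix (Fin m) (Fin m) ℂ) (N : ℕ) (E : Fin N → ℝ)
        (ψ ψ' : Fin N → ℝ → Fin m → ℂ), IsPotentialFor g W ∧ IsBoundStates W E ψ ψ' ∧
        0 < ∫ x, trPow (g + 1 / 2) (W x) ∧
        (ltConst - ε) * ∫ x, trPow (g + 1 / 2) (W x) ≤ ∑ n, |E n| ^ g := by
  set I : ℝ → ℝ := fun g => ∫ x, (3 / 4 * sech x ^ 2) ^ (g + 1 / 2) with hI
  have hc : ContinuousAt I 1 := by
    refine continuousAt_of_dominated (bound := sech) ?_ ?_ sech_integrable ?_
    · exact Eventually.of_forall fun g => ((continuous_const.mul (sech_continuous.pow 2)).rpow_const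
        fun x => Or.inl (mul_pos (by norm_num) (pow_pos (sech_pos x) 2)).ne').aestronglyMeasurable
    · filter_upwards [Ioi_mem_nhds (show (1 / 2 : ℝ) < 1 by norm_num)] with g hg
      refine Eventually.of_forall fun x => ?_
      rw [Real.norm_eq_abs, abs_of_nonneg (Real.rpow_nonneg (by positivity) _)]
      exact sol_le (by linarith [Set.mem_Ioi.mp hg]) x
    · refine Eventually.of_forall fun x => ?_
      exact (Real.continuousAt_const_rpow (mul_pos (by norm_num) (pow_pos (sech_pos x) 2)).ne').comp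
        (continuousAt_id.add continuousAt_const)
  have hI1 : I 1 = 3 * Real.sqrt 3 / 8 * (Real.pi / 2) := by
    have e : ∀ x, (3 / 4 * sech x ^ 2) ^ ((1 : ℝ) + 1 / 2) = 3 * Real.sqrt 3 / 8 * sech x ^ 3 := by
      intro x
      rw [← solW_trPow 0 x, solW_trPow' 0 (by norm_num), show (1 : ℝ) + 1 / 2 = 3 / 2 by norm_num]
    simp only [hI, e]
    rw [integral_const_mul, integral_sech_cube]
  have hI1pos : 0 < I 1 := by rw [hI1]; positivity
  set F : ℝ → ℝ := fun g => (1 / 4 : ℝ) ^ g - (ltConst - ε) * I g with hF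
  have hFc : ContinuousAt F 1 :=
    (Real.continuousAt_const_rpow (by norm_num)).sub (continuousAt_const.mul hc)
  have hF1 : 0 < F 1 := by
    have e : ltConst * I 1 = 1 / 4 := by
      rw [hI1, ltConst]
      field_simp
      norm_num
    rw [hF]
    simp only [Real.rpow_one, sub_mul, e]
    linarith [mul_pos hε hI1pos]
  obtain ⟨d, hd0, hd⟩ := Metric.eventually_nhds_iff.mp
    ((hFc.eventually_const_le hF1).and (hc.eventually_const_lt hI1pos))
  refine ⟨min d (1 / 2), lt_min hd0 (by norm_num), fun g h1 h2 m hm => ?_⟩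
  obtain ⟨k, rfl⟩ : ∃ k, m = k + 1 := ⟨m - 1, by omega⟩
  obtain ⟨ψ, ψ', hb⟩ := soliton_bound k
  have hg : 1 / 2 < g := by linarith [min_le_right d (1 / 2)]
  obtain ⟨hFg, hIg⟩ := hd (show dist g 1 < d by
    rw [Real.dist_eq, abs_lt]; constructor <;> linarith [min_le_left d (1 / 2)])
  have e : ∀ x, trPow (g + 1 / 2) (solW k x) = (3 / 4 * sech x ^ 2) ^ (g + 1 / 2) :=
    solW_trPow' k (by linarith)
  refine ⟨solW k, 1, fun _ => -1 / 4, ψ, ψ', ⟨fun a b => ?_, fun x => ?_, ?_⟩, hb, ?_, ?_⟩
  · simp only [solW, diagonal_apply]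
    by_cases hab : a = b
    · simp only [hab, if_true]
      by_cases hb : b = 0
      · simp only [hb, if_true]
        exact (Complex.continuous_ofReal.comp
          (continuous_const.mul (sech_continuous.pow 2))).measurable
      · simp only [hb, if_false]; exact measurable_const
    · simp only [hab, if_false]; exact measurable_const
  · refine Matrix.PosSemidef.diagonal fun a => ?_
    simp only [Pi.zero_apply]
    rw [Complex.zero_le_real]
    split_ifs <;> positivity
  · simp only [e]; exact sol_integrable (by linarith)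
  · simp only [e]; exact hIg
  · simp only [e, Fin.sum_univ_one, show |(-1 / 4 : ℝ)| = 1 / 4 by norm_num]
    simp only [hF, hI] at hFg
    linarith

end

end Vale.Agent.P371.LT
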